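import Vale.Agent.P088.R2.H31.EP.Wgt
import Vale.Agent.P088.R2.H222.Clo

/-!
# P088 (helper222), row P2: the inverse of a tensor close to `1`
-/

open Set Filter
open scoped ContDiff Topology Matrix

noncomputable section

namespace Vale.Agent.P088.R2.H222

open Vale.Agent.P088.LR Vale.Agent.P088.HY Vale.Agent.P088.R2.H31.EP

variable {n k : ℕ} {O : Set (V n)} {ε : ℝ}

/-- the Kronecker symbol -/
abbrev dl {n : ℕ} (i j : Fin n) : ℝ := (1 : Matrix (Fin n) (Fin n) ℝ) i j

theorem abs_dl (i j : Fin n) : |dl i j| ≤ 1 := by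
  unfold dl
  rw [Matrix.one_apply]
  split_ifs <;> simp

/-- entrywise `C^k` closeness to the identity -/
def Ck (k : ℕ) (O : Set (V n)) (ε : ℝ) (s : MF n) : Prop :=
  ∀ i j, Bk k O ε (fun x => s x i j - dl i j)

section mat

variable {M : Matrix (Fin n) (Fin n) ℝ}

theorem det_ne (h : ∀ i j, |M i j - dl i j| ≤ ε) (hε : n * ε ≤ 1 / 2) : M.det ≠ 0 := by
  refine det_ne_zero_of_sum_row_lt_diag fun i => ?_
  have hn : (1 : ℝ) ≤ n := by
    have : 0 < n := i.pos
    exact_mod_cast this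
  have hε0 : 0 ≤ ε := (abs_nonneg _).trans (h i i)
  have h1 : ∑ j ∈ Finset.univ.erase i, ‖M i j‖ ≤ ∑ j ∈ Finset.univ.erase i, ε := by
    refine Finset.sum_le_sum fun j hj => ?_
    have := h i j
    rw [dl, Matrix.one_apply_ne (Finset.ne_of_mem_erase hj).symm, sub_zero] at this
    exact this
  have h2 : ∑ j ∈ Finset.univ.erase i, ε = (n - 1) * ε := by
    rw [Finset.sum_const, Finset.card_erase_of_mem (Finset.mem_univ i), Finset.card_univ,
      Fintype.card_fin, nsmul_eq_mul, Nat.cast_sub i.pos, Nat.cast_one]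
  have h3 : 1 - ε ≤ ‖M i i‖ := by
    have h4 := h i i
    rw [dl, Matrix.one_apply_eq] at h4
    have h5 := (abs_le.1 h4).1
    have h6 := le_abs_self (M i i)
    rw [Real.norm_eq_abs]
    linarith
  nlinarith

theorem inv_le (h : ∀ i j, |M i j - dl i j| ≤ ε) (hε : n * ε ≤ 1 / 2) (i j : Fin n) :
    |M⁻¹ i j| ≤ 2 := by
  have hd := det_ne h hε
  have hu : IsUnit M.det := isUnit_iff_ne_zero.2 hd
  have e1 : M * M⁻¹ = 1 := Matrix.mul_nonsing_inv M hu
  obtain ⟨a, _, ha⟩ := Finset.exists_max_image Finset.univ (fun a => |M⁻¹ a j|)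
    ⟨i, Finset.mem_univ i⟩
  have e2 : M⁻¹ a j = dl a j - ∑ c, (M a c - dl a c) * M⁻¹ c j := by
    have e3 : ∑ c, (M a c - dl a c) * M⁻¹ c j = (M * M⁻¹) a j - M⁻¹ a j := by
      simp only [sub_mul, Finset.sum_sub_distrib, Matrix.mul_apply]
      congr 1
      simp [dl, Matrix.one_apply]
    rw [e3, e1]
    simp [dl]
  have hε0 : 0 ≤ ε := (abs_nonneg _).trans (h i i)
  have e4 : |∑ c, (M a c - dl a c) * M⁻¹ c j| ≤ n * ε * |M⁻¹ a j| := by
    refine (Finset.abs_sum_le_sum_abs _ _).trans ?_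
    calc ∑ c, |(M a c - dl a c) * M⁻¹ c j| ≤ ∑ _c : Fin n, ε * |M⁻¹ a j| := by
          refine Finset.sum_le_sum fun c _ => ?_
          rw [abs_mul]
          exact mul_le_mul (h a c) (ha c (Finset.mem_univ c)) (abs_nonneg _) hε0
      _ = n * ε * |M⁻¹ a j| := by
          rw [Finset.sum_const, Finset.card_univ, Fintype.card_fin, nsmul_eq_mul]; ring
  have e5 : |M⁻¹ a j| ≤ 1 + n * ε * |M⁻¹ a j| := by
    have h6 : |M⁻¹ a j| ≤ |dl a j| + |∑ c, (M a c - dl a c) * M⁻¹ c j| := by
      conv_lhs => rw [e2]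
      exact abs_sub _ _
    linarith [abs_dl a j]
  have h7 := mul_le_mul_of_nonneg_right hε (abs_nonneg (M⁻¹ a j))
  have h8 := ha i (Finset.mem_univ i)
  linarith

end mat

section smooth

variable {E : Type*} [NormedAddCommGroup E] [NormedSpace ℝ E] {U : Set E}

theorem det_smooth {s : E → Matrix (Fin n) (Fin n) ℝ}
    (hs : ∀ i j, ContDiffOn ℝ ∞ (fun x => s x i j) U) :
    ContDiffOn ℝ ∞ (fun x => (s x).det) U := by
  have : (fun x => (s x).det) = fun x => ∑ σ : Equiv.Perm (Fin n),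
      ((Equiv.Perm.sign σ : ℤ) : ℝ) * ∏ i, s x (σ i) i := by
    funext x
    rw [Matrix.det_apply']
  rw [this]
  exact ContDiffOn.sum fun σ _ => contDiffOn_const.mul (contDiffOn_prod fun i _ => hs _ _)

theorem inv_smooth {s : E → Matrix (Fin n) (Fin n) ℝ}
    (hs : ∀ i j, ContDiffOn ℝ ∞ (fun x => s x i j) U) (hd : ∀ x ∈ U, (s x).det ≠ 0)
    (i j : Fin n) : ContDiffOn ℝ ∞ (fun x => (s x)⁻¹ i j) U := by
  have h1 : (fun x => (s x)⁻¹ i j) = fun x => (s x).det⁻¹ * (s x).adjugate i j := by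
    funext x
    rw [Matrix.inv_def, Matrix.smul_apply, smul_eq_mul, Ring.inverse_eq_inv']
  rw [h1]
  refine ((det_smooth hs).inv hd).mul ?_
  have h2 : (fun x => (s x).adjugate i j) = fun x => ((s x).updateRow j (Pi.single i 1)).det := by
    funext x
    rw [Matrix.adjugate_apply]
  rw [h2]
  refine det_smooth fun a b => ?_
  by_cases ha : a = j
  · subst ha
    simp only [Matrix.updateRow_self]
    exact contDiffOn_const
  · simp only [Matrix.updateRow_ne ha]
    exact hs a b

end smooth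

section close

variable {s : MF n}

theorem Ck.smooth (h : Ck k O ε s) (i j : Fin n) : ContDiffOn ℝ ∞ (fun x => s x i j) O := by
  have h1 := (h i j).s.add (contDiffOn_const (c := dl i j))
  refine h1.congr fun x _ => ?_
  ring

theorem Ck.mono (h : Ck k O ε s) {k' : ℕ} (hk : k' ≤ k) {ε' : ℝ} (hε : ε ≤ ε') {O' : Set (V n)}
    (hO : O' ⊆ O) (ho : IsOpen O') : Ck k' O' ε' s := fun i j => (h i j).mono hk hε hO ho

theorem Ck.det (h : Ck k O ε s) (hε : n * ε ≤ 1 / 2) {x : V n} (hx : x ∈ O) : (s x).det ≠ 0 :=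
  det_ne (fun i j => (h i j).val hx) hε

theorem Ck.inv_val (h : Ck k O ε s) (hε : n * ε ≤ 1 / 2) {x : V n} (hx : x ∈ O) (i j : Fin n) :
    |(s x)⁻¹ i j| ≤ 2 := inv_le (fun i j => (h i j).val hx) hε i j

/-- the derivative of the entries of the inverse -/
theorem fderiv_inv {O : Set (V n)} (hO : IsOpen O)
    (hs : ∀ i j, ContDiffOn ℝ ∞ (fun x => s x i j) O) (hd : ∀ x ∈ O, (s x).det ≠ 0) {x : V n}
    (hx : x ∈ O) (i j : Fin n) :
    fderiv ℝ (fun x => (s x)⁻¹ i j) x =
      -∑ a, ∑ b, ((s x)⁻¹ i a * (s x)⁻¹ b j) • fderiv ℝ (fun x => s x a b) x := by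
  have df : ∀ {f : V n → ℝ}, ContDiffOn ℝ ∞ f O → DifferentiableAt ℝ f x := fun hf =>
    ((hf x hx).contDiffAt (hO.mem_nhds hx)).differentiableAt (by norm_num)
  have dG : ∀ i j, DifferentiableAt ℝ (fun x => (s x)⁻¹ i j) x := fun i j =>
    df (inv_smooth hs hd i j)
  have dS : ∀ i j, DifferentiableAt ℝ (fun x => s x i j) x := fun i j => df (hs i j)
  have hU : ∀ y ∈ O, IsUnit (s y).det := fun y hy => isUnit_iff_ne_zero.2 (hd y hy)
  ext w
  set DS : Matrix (Fin n) (Fin n) ℝ := fun a b => fderiv ℝ (fun x => s x a b) x w with hDS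
  set DG : Matrix (Fin n) (Fin n) ℝ := fun a b => fderiv ℝ (fun x => (s x)⁻¹ a b) x w with hDG
  have key : DG * s x + (s x)⁻¹ * DS = 0 := by
    ext i c
    have h1 : (fun y => ∑ b, (s y)⁻¹ i b * s y b c) =ᶠ[𝓝 x] fun _ => dl i c := by
      filter_upwards [hO.mem_nhds hx] with y hy
      have := Matrix.nonsing_inv_mul (s y) (hU y hy)
      rw [← Matrix.mul_apply, this]
    have h2 := h1.fderiv_eq (𝕜 := ℝ)
    have e0 : fderiv ℝ (fun _ : V n => dl i c) x = 0 := fderiv_const_apply _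
    rw [e0, fderiv_fun_sum fun b _ => (dG i b).fun_mul (dS b c)] at h2
    have h3 := congrArg (fun L : V n →L[ℝ] ℝ => L w) h2
    simp only [_root_.sum_apply, _root_.zero_apply] at h3
    rw [Matrix.add_apply, Matrix.mul_apply, Matrix.mul_apply, Matrix.zero_apply, ← h3,
      ← Finset.sum_add_distrib]
    refine Finset.sum_congr rfl fun b _ => ?_
    rw [fderiv_fun_mul (dG i b) (dS b c)]
    simp only [_root_.add_apply, _root_.smul_apply, smul_eq_mul, hDS, hDG]
    ring
  have e1 : DG = -((s x)⁻¹ * DS * (s x)⁻¹) := by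
    have h1 : DG * s x = -((s x)⁻¹ * DS) := eq_neg_of_add_eq_zero_left key
    calc DG = DG * s x * (s x)⁻¹ := by
          rw [Matrix.mul_assoc, Matrix.mul_nonsing_inv _ (hU x hx), Matrix.mul_one]
      _ = _ := by rw [h1, Matrix.neg_mul]
  have e2 := congrFun (congrFun e1 i) j
  simp only [_root_.neg_apply, _root_.sum_apply, _root_.smul_apply, smul_eq_mul]
  rw [Matrix.neg_apply, Matrix.mul_apply] at e2
  refine e2.trans ?_
  congr 1
  simp only [Matrix.mul_apply, Finset.sum_mul]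
  rw [Finset.sum_comm]
  exact Finset.sum_congr rfl fun a _ => Finset.sum_congr rfl fun b _ => by ring

/-- constant for the entries of the inverse -/
def cI (n : ℕ) : ℕ → ℝ
  | 0 => 2
  | k + 1 => max (cI n k) (n * (n * (2 ^ k * (2 ^ k * cI n k * cI n k))))

theorem two_le_cI (n k : ℕ) : 2 ≤ cI n k := by
  induction k with
  | zero => exact le_rfl
  | succ k ih => exact ih.trans (le_max_left _ _)

theorem Ck.inv_bd (h : Ck k O ε s) (hO : IsOpen O) (h1 : ε ≤ 1)
    (hε : n * ε ≤ 1 / 2) (i j : Fin n) : Bk k O (cI n k) (fun x => gi s x i j) := by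
  have hs := h.smooth
  have hd : ∀ x ∈ O, (s x).det ≠ 0 := fun x hx => h.det hε hx
  induction k generalizing i j with
  | zero =>
    refine ⟨hO, inv_smooth hs hd i j, fun m hm x hx => ?_⟩
    obtain rfl : m = 0 := by omega
    rw [norm_iteratedFDeriv_zero]
    exact h.inv_val hε hx i j
  | succ k ih =>
    have ih' := ih (h.mono (Nat.le_succ k) le_rfl Subset.rfl hO)
    refine Bk.of_fd hO (inv_smooth hs hd i j) (fun x hx => ?_) ?_
    · exact (h.inv_val hε hx i j).trans (two_le_cI _ _)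
    · have b1 : ∀ a b, Bk k O (2 ^ k * (2 ^ k * cI n k * cI n k) * ε) (fun x =>
          (gi s x i a * gi s x b j) • fderiv ℝ (fun x => s x a b - dl a b) x) := fun a b =>
        ((ih' i a).mul (ih' b j)).smul (h a b).fd
      have b2 := Bk.sum (k := k) Finset.univ hO fun a (_ : a ∈ Finset.univ) =>
        Bk.sum (k := k) Finset.univ hO fun b (_ : b ∈ Finset.univ) => b1 a b
      have b3 := (Bk.const (k := k) (U := O) (B := 0) hO (c := (0 : V n →L[ℝ] ℝ))
        (by simp)).sub b2
      refine (b3.congr fun x hx => ?_).le ?_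
      · rw [zero_sub]
        refine (fderiv_inv hO hs hd hx i j).trans ?_
        congr 1
        refine Finset.sum_congr rfl fun a _ => Finset.sum_congr rfl fun b _ => ?_
        congr 1
        exact (fderiv_sub_const (dl a b)).symm
      · simp only [Finset.sum_const, Finset.card_univ, Fintype.card_fin, nsmul_eq_mul]
        have h2 := two_le_cI n k
        have h3 : cI n (k + 1) = max (cI n k) (n * (n * (2 ^ k * (2 ^ k * cI n k * cI n k)))) :=
          rfl
        rw [h3]
        refine le_trans ?_ (le_max_right _ _)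
        calc 0 + n * (n * (2 ^ k * (2 ^ k * cI n k * cI n k) * ε)) =
              (n * (n * (2 ^ k * (2 ^ k * cI n k * cI n k)))) * ε := by ring
          _ ≤ _ := mul_le_of_le_one_right (by positivity) h1

/-- **The inverse of a tensor close to `1`.** -/
theorem Ck.inv (h : Ck k O ε s) (hO : IsOpen O) (h1 : ε ≤ 1)
    (hε : n * ε ≤ 1 / 2) : Ck k O (n * (2 ^ k * cI n k) * ε) (gi s) := by
  intro i j
  have b1 : ∀ a, Bk k O (2 ^ k * cI n k * ε) (fun x => gi s x i a * (s x a j - dl a j)) :=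
    fun a => (h.inv_bd hO h1 hε i a).mul (h a j)
  have b2 := Bk.sum (k := k) Finset.univ hO fun a (_ : a ∈ Finset.univ) => b1 a
  have b3 := (Bk.const (k := k) (U := O) (B := 0) hO (c := (0 : ℝ)) (by simp)).sub b2
  refine (b3.congr fun x hx => ?_).le ?_
  · have hu : IsUnit (s x).det := isUnit_iff_ne_zero.2 (h.det hε hx)
    have e1 : ∑ a, gi s x i a * (s x a j - dl a j) = dl i j - gi s x i j := by
      simp only [mul_sub, Finset.sum_sub_distrib]
      congr 1
      · rw [← Matrix.mul_apply]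
        unfold gi
        rw [Matrix.nonsing_inv_mul _ hu]
      · simp [dl, Matrix.one_apply]
    rw [e1]
    ring
  · simp only [Finset.sum_const, Finset.card_univ, Fintype.card_fin, nsmul_eq_mul]
    refine le_of_eq ?_
    ring

end close

end Vale.Agent.P088.R2.H222
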