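import Vale.Agent.P088.R2.H31.EP.Wgt
import Vale.Agent.P088.R2.H222.Inv

/-!
# P088 (helper222), row P2: the weight is `C^k` close to the flat model

On a set where the correction `μ` vanishes, `X = 1` and the difference is short, the weight of
(EST') is `C^k` close to the weight of the flat metric with the SAME level function, linearly in
the `C^k` size of `g - 1`.
-/

open Set Filter
open scoped ContDiff Topology Matrix

noncomputable section

namespace Vale.Agent.P088.R2.H222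

open Vale.Agent.P088.LR Vale.Agent.P088.HY Vale.Agent.P088.R2 Vale.Agent.P088.R2.H464.Cu
  Vale.Agent.P088.R2.H31 Vale.Agent.P088.R2.H31.EP

variable {n : ℕ}

/-- `|q|²` -/
def qq (z : VV n) : ℝ := ∑ i, dif z i ^ 2

/-- the flat model of the weight, level function `l` -/
def W0 (F : Fu) (l : V n → ℝ) (z : VV n) : ℝ :=
  F.Φ (l z.1 + l z.2) + Real.exp (l z.1 + l z.2) * F.S (qq z)

/-- the component of the difference as a linear map -/
def difL (n : ℕ) (i : Fin n) : VV n →L[ℝ] ℝ :=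
  (ContinuousLinearMap.proj (R := ℝ) (φ := fun _ : Fin n => ℝ) i).comp
    (ContinuousLinearMap.fst ℝ (V n) (V n) - ContinuousLinearMap.snd ℝ (V n) (V n))

theorem difL_apply (i : Fin n) (z : VV n) : difL n i z = dif z i := rfl

theorem norm_difL (i : Fin n) : ‖difL n i‖ ≤ 2 := by
  refine ContinuousLinearMap.opNorm_le_bound _ (by norm_num) fun z => ?_
  rw [difL_apply, dif_apply]
  have h1 : ‖z.1 i‖ ≤ ‖z‖ := (norm_le_pi_norm z.1 i).trans (norm_fst_le z)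
  have h2 : ‖z.2 i‖ ≤ ‖z‖ := (norm_le_pi_norm z.2 i).trans (norm_snd_le z)
  calc ‖z.1 i - z.2 i‖ ≤ ‖z.1 i‖ + ‖z.2 i‖ := norm_sub_le _ _
    _ ≤ 2 * ‖z‖ := by linarith

theorem norm_midL : ‖midL n‖ ≤ 1 := by
  refine ContinuousLinearMap.opNorm_le_bound _ (by norm_num) fun z => ?_
  rw [midL_apply, mid, norm_smul]
  have h1 : ‖z.1 + z.2‖ ≤ ‖z.1‖ + ‖z.2‖ := norm_add_le _ _
  have h2 := norm_fst_le z
  have h3 := norm_snd_le z
  have h4 : ‖(1 / 2 : ℝ)‖ = 1 / 2 := by norm_num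
  rw [h4]
  linarith

section

variable {k : ℕ} {O : Set (V n)} {U : Set (VV n)} {g : MF n} {l : V n → ℝ} {ε r0 a b B : ℝ}

theorem abs_dif_le (h0 : 0 ≤ r0) {z : VV n} (h : qq z ≤ r0 ^ 2) (i : Fin n) : |dif z i| ≤ r0 := by
  have h1 : dif z i ^ 2 ≤ qq z :=
    Finset.single_le_sum (f := fun i => dif z i ^ 2) (fun j _ => sq_nonneg _) (Finset.mem_univ i)
  exact abs_le_of_sq_le_sq (h1.trans h) h0

theorem bk_dif (hU : IsOpen U) (h0 : 0 ≤ r0) (hq : ∀ z ∈ U, qq z ≤ r0 ^ 2) (i : Fin n) :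
    Bk k U (r0 + 2) (fun z => dif z i) :=
  Bk.lin (difL n i) hU ((norm_difL i).trans (by linarith)) fun z hz =>
    (abs_dif_le h0 (hq z hz) i).trans (by linarith)

/-- `r² - |q|²` as a sum -/
theorem r2_sub_qq (g : MF n) (z : VV n) :
    r2 g z - qq z = ∑ i, ∑ j, (g (mid z) i j - dl i j) * (dif z i * dif z j) := by
  have e1 : r2 g z = ∑ i, ∑ j, g (mid z) i j * dif z i * dif z j := by
    unfold r2 rq bf; ring
  have e2 : qq z = ∑ i, ∑ j, dl i j * (dif z i * dif z j) := by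
    unfold qq
    refine Finset.sum_congr rfl fun i _ => ?_
    rw [Finset.sum_eq_single i]
    · simp [dl]; ring
    · intro j _ hj
      simp [dl, Matrix.one_apply_ne hj.symm]
    · simp
  rw [e1, e2, ← Finset.sum_sub_distrib]
  refine Finset.sum_congr rfl fun i _ => ?_
  rw [← Finset.sum_sub_distrib]
  exact Finset.sum_congr rfl fun j _ => by ring

/-- the constant of the difference of the squares -/
def c1 (n k : ℕ) (r0 : ℝ) : ℝ := n * (n * (2 ^ k * (2 ^ k * (r0 + 2) * (r0 + 2))))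

theorem c1_nonneg (h0 : 0 ≤ r0) : 0 ≤ c1 n k r0 := by unfold c1; positivity

theorem bk_r2_sub (hU : IsOpen U) (h0 : 0 ≤ r0) (hq : ∀ z ∈ U, qq z ≤ r0 ^ 2)
    (hO : ∀ z ∈ U, mid z ∈ O) (hg : ∀ i j, Bk k O ε (fun x => g x i j - dl i j)) :
    Bk k U (c1 n k r0 * ε) (fun z => r2 g z - qq z) := by
  have h1 : ∀ i j, Bk k U (2 ^ k * ε * (2 ^ k * (r0 + 2) * (r0 + 2)))
      (fun z => (g (mid z) i j - dl i j) * (dif z i * dif z j)) := fun i j =>
    ((hg i j).comp_right (midL n) norm_midL hU fun z hz => hO z hz).mul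
      ((bk_dif hU h0 hq i).mul (bk_dif hU h0 hq j))
  have h2 := Bk.sum (k := k) Finset.univ hU fun i (_ : i ∈ Finset.univ) =>
    Bk.sum (k := k) Finset.univ hU fun j (_ : j ∈ Finset.univ) => h1 i j
  refine (h2.congr fun z _ => r2_sub_qq g z).le (le_of_eq ?_)
  simp only [Finset.sum_const, Finset.card_univ, Fintype.card_fin, nsmul_eq_mul]
  unfold c1; ring

/-- the constant of `|q|²` -/
def c2 (n k : ℕ) (r0 : ℝ) : ℝ := n * (2 ^ k * (r0 + 2) * (r0 + 2))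

theorem c2_nonneg (h0 : 0 ≤ r0) : 0 ≤ c2 n k r0 := by unfold c2; positivity

theorem bk_qq (hU : IsOpen U) (h0 : 0 ≤ r0) (hq : ∀ z ∈ U, qq z ≤ r0 ^ 2) :
    Bk k U (c2 n k r0) (qq (n := n)) := by
  have h2 := Bk.sum (k := k) Finset.univ hU fun i (_ : i ∈ Finset.univ) =>
    (bk_dif (k := k) hU h0 hq i).mul (bk_dif hU h0 hq i)
  refine (h2.congr fun z _ => ?_).le (le_of_eq ?_)
  · unfold qq
    exact Finset.sum_congr rfl fun i _ => sq _
  · simp only [Finset.sum_const, Finset.card_univ, Fintype.card_fin, nsmul_eq_mul]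
    unfold c2; ring

/-- `l` smooth on `O` with the derivatives of order `1, …, k` bounded -/
structure Lk (k : ℕ) (O : Set (V n)) (B : ℝ) (l : V n → ℝ) : Prop where
  o : IsOpen O
  s : ContDiffOn ℝ ∞ l O
  b : ∀ j, 1 ≤ j → j ≤ k → ∀ x ∈ O, ‖iteratedFDeriv ℝ j l x‖ ≤ B

theorem bk_sum_l (hU : IsOpen U) (hl : Lk k O B l) (h1 : ∀ z ∈ U, z.1 ∈ O)
    (h2 : ∀ z ∈ U, z.2 ∈ O) (hI : ∀ z ∈ U, l z.1 + l z.2 ∈ Icc a b) :
    Bk k U (|a| + |b| + 2 * |B|) (fun z : VV n => l z.1 + l z.2) := by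
  have s1 : ContDiffOn ℝ ∞ (fun z : VV n => l z.1) U := hl.s.comp contDiff_fst.contDiffOn h1
  have s2 : ContDiffOn ℝ ∞ (fun z : VV n => l z.2) U := hl.s.comp contDiff_snd.contDiffOn h2
  refine ⟨hU, s1.add s2, fun j hj z hz => ?_⟩
  rcases Nat.eq_zero_or_pos j with rfl | hj'
  · rw [norm_iteratedFDeriv_zero, Real.norm_eq_abs, abs_le]
    have h3 := (hI z hz).1
    have h4 := (hI z hz).2
    have h5 := neg_abs_le a
    have h6 := le_abs_self b
    have h7 := abs_nonneg a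
    have h8 := abs_nonneg b
    have h9 := abs_nonneg B
    constructor <;> linarith
  · have e1 : (j : WithTop ℕ∞) ≤ ∞ := by exact_mod_cast le_top
    have e2 : iteratedFDeriv ℝ j (fun z : VV n => l z.1 + l z.2) z =
        iteratedFDeriv ℝ j (fun z : VV n => l z.1) z +
          iteratedFDeriv ℝ j (fun z : VV n => l z.2) z :=
      fun_iteratedFDeriv_add_apply (((s1 z hz).contDiffAt (hU.mem_nhds hz)).of_le e1)
        (((s2 z hz).contDiffAt (hU.mem_nhds hz)).of_le e1)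
    have e3 := norm_comp_right (ContinuousLinearMap.fst ℝ (V n) (V n))
      (ContinuousLinearMap.norm_fst_le _ _ _) hl.o hl.s (h1 z hz) j
    have e4 := norm_comp_right (ContinuousLinearMap.snd ℝ (V n) (V n))
      (ContinuousLinearMap.norm_snd_le _ _ _) hl.o hl.s (h2 z hz) j
    have e5 := hl.b j hj' hj _ (h1 z hz)
    have e6 := hl.b j hj' hj _ (h2 z hz)
    rw [e2]
    refine (norm_add_le _ _).trans ?_
    have h7 := abs_nonneg a
    have h8 := abs_nonneg b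
    have h9 := le_abs_self B
    have e3' : ‖iteratedFDeriv ℝ j (fun z : VV n => l z.1) z‖ ≤ B := e3.trans e5
    have e4' : ‖iteratedFDeriv ℝ j (fun z : VV n => l z.2) z‖ ≤ B := e4.trans e6
    linarith

end

/-- The data on which the weight is close to the flat model: `O`, `U` open, short differences,
values of the level in `[a, b]`, no correction. -/
structure Cl (F : Fu) (r0 a b : ℝ) (O : Set (V n)) (U : Set (VV n)) (l : V n → ℝ) : Prop where
  o : IsOpen U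
  fst : ∀ z ∈ U, z.1 ∈ O
  snd : ∀ z ∈ U, z.2 ∈ O
  mid : ∀ z ∈ U, mid z ∈ O
  q : ∀ z ∈ U, qq z ≤ r0 ^ 2
  i : ∀ z ∈ U, l z.1 + l z.2 ∈ Icc a b
  m : ∀ z ∈ U, F.μ (l (H464.Cu.mid z)) = 0

section

variable {k : ℕ} {O : Set (V n)} {U : Set (VV n)} {g : MF n} {l : V n → ℝ} {ε r0 a b B rd : ℝ}
  {F : Fu}

theorem qq_nonneg (z : VV n) : 0 ≤ qq z := Finset.sum_nonneg fun _ _ => sq_nonneg _

theorem abs_r2_sub (hO : ∀ z ∈ U, mid z ∈ O) (hg : Ck k O ε g) (hε : 0 ≤ ε) {z : VV n}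
    (hz : z ∈ U) : |r2 g z - qq z| ≤ n * ε * qq z := by
  rw [r2_sub_qq]
  have h1 : ∀ i j, |(g (mid z) i j - dl i j) * (dif z i * dif z j)| ≤
      ε / 2 * (dif z i ^ 2 + dif z j ^ 2) := by
    intro i j
    rw [abs_mul]
    have h2 : |g (mid z) i j - dl i j| ≤ ε := (hg i j).val (hO z hz)
    have h3 : |dif z i * dif z j| ≤ 1 / 2 * (dif z i ^ 2 + dif z j ^ 2) := by
      rw [abs_le]
      constructor <;> nlinarith [sq_nonneg (dif z i + dif z j), sq_nonneg (dif z i - dif z j)]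
    calc |g (mid z) i j - dl i j| * |dif z i * dif z j| ≤
          ε * (1 / 2 * (dif z i ^ 2 + dif z j ^ 2)) := mul_le_mul h2 h3 (abs_nonneg _) hε
      _ = _ := by ring
  refine (Finset.abs_sum_le_sum_abs _ _).trans ?_
  calc ∑ i, |∑ j, (g (mid z) i j - dl i j) * (dif z i * dif z j)| ≤
        ∑ i, ∑ j, ε / 2 * (dif z i ^ 2 + dif z j ^ 2) := by
        refine Finset.sum_le_sum fun i _ => ?_
        exact (Finset.abs_sum_le_sum_abs _ _).trans (Finset.sum_le_sum fun j _ => h1 i j)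
    _ = n * ε * qq z := by
        unfold qq
        simp only [← Finset.mul_sum, Finset.sum_add_distrib, Finset.sum_const, Finset.card_univ,
          Fintype.card_fin, nsmul_eq_mul]
        ring

theorem uu_eq (hC : Cl F r0 a b O U l) {z : VV n} (hz : z ∈ U) :
    EP.uu F l g z = l z.1 + l z.2 := by
  unfold EP.uu
  rw [hC.m z hz]
  ring

/-- the interval of the values of `r²` -/
def Kq (n : ℕ) (r0 : ℝ) : Set ℝ := Icc (-((1 + n) * r0 ^ 2)) ((1 + n) * r0 ^ 2)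

/-- **Row P2, the weight, uniform constants.**  The constant depends only on `n`, `k`, `r0`,
`[a, b]`, `B` and the bounds `M1`, `M3` of the functions of one variable. -/
theorem WW_close_u (n : ℕ) (h0 : 0 ≤ r0) (k : ℕ) (a b B : ℝ) {M1 M3 : ℝ} (hM1 : 0 ≤ M1)
    (hM3 : 0 ≤ M3) :
    ∃ C : ℝ, 0 ≤ C ∧ ∀ (F : Fu) (rd : ℝ), F.Ok rd → Sk k (Icc a b) univ M1 F.Φ →
      Sk (k + 1) (Kq n r0) univ M3 F.S → (∀ u ∈ Icc a b, F.X u = 1) →
      ∀ ε : ℝ, 0 ≤ ε → ε ≤ 1 → (1 + n * ε) * r0 ^ 2 < rd ^ 2 →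
      ∀ (O : Set (V n)) (U : Set (VV n)) (l : V n → ℝ) (g : MF n), Lk k O B l → Ck k O ε g →
        Cl F r0 a b O U l →
        Bk k U (C * ε) (fun z => WW F l g z - W0 F l z) ∧ Bk k U C (WW F l g) ∧
          Bk k U C (W0 F l) := by
  set K := (1 + n) * r0 ^ 2 with hK
  have hK0 : 0 ≤ K := by positivity
  obtain ⟨M2, hM2, hE⟩ := exists_Sk Real.contDiff_exp (isCompact_Icc (a := a) (b := b)) k
  set Bu := |a| + |b| + 2 * |B| with hBu
  have hBu0 : 0 ≤ Bu := by positivity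
  set D := c2 n k r0 + c1 n k r0 with hD
  have h10 := c1_nonneg (n := n) (k := k) h0
  have h20 := c2_nonneg (n := n) (k := k) h0
  have hD0 : 0 ≤ D := add_nonneg h20 h10
  have hcB : ∀ {k M B}, 0 ≤ M → 0 ≤ cB k M B := fun h => h.trans (M_le_cB _ _ _)
  have hcC : ∀ {k M B}, 0 ≤ M → 0 ≤ cC k M B := fun h => h.trans (M_le_cC _ _ _)
  set C1 := 2 ^ k * cB k M2 Bu * (cC k M3 D * c1 n k r0) with hC1
  set C2 := cB k M1 Bu + 2 ^ k * cB k M2 Bu * cB k M3 D with hC2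
  have hC10 : 0 ≤ C1 := by
    have := hcB (k := k) (B := Bu) hM2
    have := hcC (k := k) (B := D) hM3
    positivity
  have hC20 : 0 ≤ C2 := by
    have := hcB (k := k) (B := Bu) hM2
    have := hcB (k := k) (B := Bu) hM1
    have := hcB (k := k) (B := D) hM3
    positivity
  refine ⟨C1 + C2, add_nonneg hC10 hC20, ?_⟩
  intro F rd hF hΦ hS hX ε he0 he1 hsm O U l g hl hg hC
  have bu : Bk k U Bu (fun z : VV n => l z.1 + l z.2) := bk_sum_l hC.o hl hC.fst hC.snd hC.i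
  have bq : Bk k U D (qq (n := n)) := (bk_qq hC.o h0 hC.q).le (by linarith)
  have bd : Bk k U (c1 n k r0 * ε) (fun z => r2 g z - qq z) :=
    bk_r2_sub hC.o h0 hC.q hC.mid hg
  have br : Bk k U D (r2 g) := by
    refine ((bk_qq (k := k) hC.o h0 hC.q).add bd).congr (g := r2 g) (fun z _ => by ring)
      |>.le ?_
    have : c1 n k r0 * ε ≤ c1 n k r0 := mul_le_of_le_one_right h10 he1
    linarith
  have hn : (0 : ℝ) ≤ n := Nat.cast_nonneg n
  have iq : ∀ z ∈ U, qq z ∈ Icc (-K) K := by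
    intro z hz
    have h1 := hC.q z hz
    have h2 := qq_nonneg z
    have h3 := sq_nonneg r0
    refine ⟨by linarith, h1.trans ?_⟩
    rw [hK]
    nlinarith
  have ir' : ∀ z ∈ U, |r2 g z| ≤ (1 + n * ε) * r0 ^ 2 := by
    intro z hz
    have h1 := abs_r2_sub hC.mid hg he0 hz
    have h2 := hC.q z hz
    have h3 := qq_nonneg z
    have h4 := abs_le.1 h1
    have h5 : n * ε * qq z ≤ n * ε * r0 ^ 2 :=
      mul_le_mul_of_nonneg_left h2 (mul_nonneg hn he0)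
    rw [abs_le]
    constructor <;> nlinarith [sq_nonneg r0]
  have ir : ∀ z ∈ U, r2 g z ∈ Icc (-K) K := by
    intro z hz
    have h1 := ir' z hz
    have h2 : (1 + n * ε) * r0 ^ 2 ≤ K := by
      rw [hK]
      have : n * ε ≤ n := mul_le_of_le_one_right hn he1
      have := sq_nonneg r0
      gcongr
    exact abs_le.1 (h1.trans h2)
  have eW : ∀ z ∈ U, WW F l g z = F.Φ (l z.1 + l z.2) +
      Real.exp (l z.1 + l z.2) * F.S (r2 g z) := by
    intro z hz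
    unfold WW
    rw [uu_eq hC hz, hX _ (hC.i z hz), one_mul,
      st_in' hF (lt_of_le_of_lt (le_abs_self _) ((ir' z hz).trans_lt hsm))]
  have b1 : Bk k U (cB k M1 Bu) (fun z : VV n => F.Φ (l z.1 + l z.2)) := Bk.comp hΦ bu hC.i
  have b2 : Bk k U (cB k M2 Bu) (fun z : VV n => Real.exp (l z.1 + l z.2)) :=
    Bk.comp hE bu hC.i
  have b3 : Bk k U (cB k M3 D) (fun z => F.S (r2 g z)) := Bk.comp (hS.mono (Nat.le_succ k)) br ir
  have b4 : Bk k U (cB k M3 D) (fun z : VV n => F.S (qq z)) :=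
    Bk.comp (hS.mono (Nat.le_succ k)) bq iq
  have b5 : Bk k U (cC k M3 D * (c1 n k r0 * ε)) (fun z => F.S (r2 g z) - F.S (qq z)) :=
    Bk.comp_sub (convex_Icc _ _) hS br bq bd ir iq hM3 (mul_nonneg h10 he0)
  refine ⟨?_, ?_, ?_⟩
  · refine ((b2.mul b5).congr (g := fun z => WW F l g z - W0 F l z) fun z hz => ?_).le ?_
    · rw [eW z hz, W0]; ring
    · calc 2 ^ k * cB k M2 Bu * (cC k M3 D * (c1 n k r0 * ε)) = C1 * ε := by rw [hC1]; ring
        _ ≤ (C1 + C2) * ε := mul_le_mul_of_nonneg_right (by linarith) he0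
  · refine ((b1.add (b2.mul b3)).congr (g := WW F l g) fun z hz => eW z hz).le ?_
    linarith
  · refine ((b1.add (b2.mul b4)).congr (g := W0 F l) fun z hz => rfl).le ?_
    linarith

/-- **Row P2, the weight.**  The constant depends on `F`, `n`, `k`, `r0`, `[a, b]`, `B` only. -/
theorem WW_close (hF : F.Ok rd) (h0 : 0 ≤ r0) (k : ℕ) (a b B : ℝ)
    (hX : ∀ u ∈ Icc a b, F.X u = 1) :
    ∃ C : ℝ, 0 ≤ C ∧ ∀ ε : ℝ, 0 ≤ ε → ε ≤ 1 → (1 + n * ε) * r0 ^ 2 < rd ^ 2 →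
      ∀ (O : Set (V n)) (U : Set (VV n)) (l : V n → ℝ) (g : MF n), Lk k O B l → Ck k O ε g →
        Cl F r0 a b O U l →
        Bk k U (C * ε) (fun z => WW F l g z - W0 F l z) ∧ Bk k U C (WW F l g) ∧
          Bk k U C (W0 F l) := by
  obtain ⟨M1, hM1, hΦ⟩ := exists_Sk hF.Φs (isCompact_Icc (a := a) (b := b)) k
  obtain ⟨M3, hM3, hS⟩ := exists_Sk hF.Ss (I := Kq n r0) isCompact_Icc (k + 1)
  obtain ⟨C, hC, H⟩ := WW_close_u n h0 k a b B hM1 hM3
  exact ⟨C, hC, H F rd hF hΦ hS hX⟩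

/-- change of the level function in the flat model -/
theorem W0_close_u (n : ℕ) (h0 : 0 ≤ r0) (k : ℕ) (a b B : ℝ) {M1 M3 : ℝ} (hM1 : 0 ≤ M1)
    (hM3 : 0 ≤ M3) :
    ∃ C : ℝ, 0 ≤ C ∧ ∀ F : Fu, Sk (k + 1) (Icc a b) univ M1 F.Φ →
      Sk k (Icc 0 (r0 ^ 2)) univ M3 F.S → ∀ ε : ℝ, 0 ≤ ε →
      ∀ (O : Set (V n)) (U : Set (VV n)) (l l0 : V n → ℝ), Lk k O B l → Lk k O B l0 →
        Bk k O ε (fun x => l x - l0 x) → Cl F r0 a b O U l →
        (∀ z ∈ U, l0 z.1 + l0 z.2 ∈ Icc a b) →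
        Bk k U (C * ε) (fun z => W0 F l z - W0 F l0 z) := by
  obtain ⟨M2, hM2, hE⟩ := exists_Sk Real.contDiff_exp (isCompact_Icc (a := a) (b := b)) (k + 1)
  set Bu := |a| + |b| + 2 * |B| with hBu
  set D := c2 n k r0 with hD
  have hcB : ∀ {k M B}, 0 ≤ M → 0 ≤ cB k M B := fun h => h.trans (M_le_cB _ _ _)
  have hcC : ∀ {k M B}, 0 ≤ M → 0 ≤ cC k M B := fun h => h.trans (M_le_cC _ _ _)
  have h1 := hcC (k := k) (B := Bu) hM1
  have h2 := hcC (k := k) (B := Bu) hM2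
  have h3 := hcB (k := k) (B := D) hM3
  refine ⟨cC k M1 Bu * 2 + 2 ^ k * (cC k M2 Bu * 2) * cB k M3 D, by positivity, ?_⟩
  intro F hΦ hS ε he0 O U l l0 hl hl0 hll hC hI0
  have bu : Bk k U Bu (fun z : VV n => l z.1 + l z.2) := bk_sum_l hC.o hl hC.fst hC.snd hC.i
  have bu0 : Bk k U Bu (fun z : VV n => l0 z.1 + l0 z.2) := bk_sum_l hC.o hl0 hC.fst hC.snd hI0
  have bd : Bk k U (ε + ε) (fun z : VV n => (l z.1 + l z.2) - (l0 z.1 + l0 z.2)) := by
    refine ((hll.comp_right (ContinuousLinearMap.fst ℝ (V n) (V n))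
      (ContinuousLinearMap.norm_fst_le _ _ _) hC.o hC.fst).add
      (hll.comp_right (ContinuousLinearMap.snd ℝ (V n) (V n))
      (ContinuousLinearMap.norm_snd_le _ _ _) hC.o hC.snd)).congr fun z _ => ?_
    simp only [ContinuousLinearMap.coe_fst', ContinuousLinearMap.coe_snd']
    ring
  have iq : ∀ z ∈ U, qq z ∈ Icc 0 (r0 ^ 2) := fun z hz => ⟨qq_nonneg z, hC.q z hz⟩
  have bq : Bk k U D (qq (n := n)) := bk_qq hC.o h0 hC.q
  have b1 : Bk k U (cC k M1 Bu * (ε + ε))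
      (fun z : VV n => F.Φ (l z.1 + l z.2) - F.Φ (l0 z.1 + l0 z.2)) :=
    Bk.comp_sub (convex_Icc _ _) hΦ bu bu0 bd hC.i hI0 hM1 (by linarith)
  have b2 : Bk k U (cC k M2 Bu * (ε + ε))
      (fun z : VV n => Real.exp (l z.1 + l z.2) - Real.exp (l0 z.1 + l0 z.2)) :=
    Bk.comp_sub (convex_Icc _ _) hE bu bu0 bd hC.i hI0 hM2 (by linarith)
  have b4 : Bk k U (cB k M3 D) (fun z : VV n => F.S (qq z)) := Bk.comp hS bq iq
  refine ((b1.add (b2.mul b4)).congr fun z _ => ?_).le (le_of_eq ?_)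
  · rw [W0, W0]; ring
  · ring

/-- **Row P2, the weight, with the change of the level function.** -/
theorem WW_close' (hF : F.Ok rd) (h0 : 0 ≤ r0) (k : ℕ) (a b B : ℝ)
    (hX : ∀ u ∈ Icc a b, F.X u = 1) :
    ∃ C : ℝ, 0 ≤ C ∧ ∀ ε : ℝ, 0 ≤ ε → ε ≤ 1 → (1 + n * ε) * r0 ^ 2 < rd ^ 2 →
      ∀ (O : Set (V n)) (U : Set (VV n)) (l l0 : V n → ℝ) (g : MF n), Lk k O B l →
        Lk k O B l0 → Bk k O ε (fun x => l x - l0 x) → Ck k O ε g → Cl F r0 a b O U l →
        (∀ z ∈ U, l0 z.1 + l0 z.2 ∈ Icc a b) →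
        Bk k U (C * ε) (fun z => WW F l g z - W0 F l0 z) ∧ Bk k U C (WW F l g) ∧
          Bk k U C (W0 F l0) := by
  obtain ⟨C1, hC1, H1⟩ := WW_close (n := n) hF h0 k a b B hX
  obtain ⟨M1, hM1, hΦ⟩ := exists_Sk hF.Φs (isCompact_Icc (a := a) (b := b)) (k + 1)
  obtain ⟨M3, hM3, hS⟩ := exists_Sk hF.Ss (I := Icc 0 (r0 ^ 2)) isCompact_Icc k
  obtain ⟨C2, hC2, H2'⟩ := W0_close_u n h0 k a b B hM1 hM3
  have H2 := H2' F hΦ hS
  refine ⟨C1 + C2, add_nonneg hC1 hC2, ?_⟩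
  intro ε he0 he1 hsm O U l l0 g hl hl0 hll hg hC hI0
  obtain ⟨a1, a2, a3⟩ := H1 ε he0 he1 hsm O U l g hl hg hC
  have a4 := H2 ε he0 O U l l0 hl hl0 hll hC hI0
  refine ⟨((a1.add a4).congr fun z _ => by ring).le (le_of_eq (by ring)), a2.le (by linarith),
    ((a3.sub a4).congr fun z _ => by ring).le ?_⟩
  have : C2 * ε ≤ C2 := mul_le_of_le_one_right hC2 he1
  linarith

end

end Vale.Agent.P088.R2.H222
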