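import Vale.Agent.P088.R2.H475.INF.LevD
import Vale.Agent.P088.R2.H222.P2

/-!
# P088 (helper222): the level function, derivative bounds below `lam0 + 5 R`
-/

open Set Filter
open scoped ContDiff Topology Matrix

noncomputable section

namespace Vale.Agent.P088.R2.H222

open Vale.Agent.P088.LR Vale.Agent.P088.HY Vale.Agent.P088.HY.T3 Vale.Agent.P088.HY.T4
open Vale.Agent.P088.R2.H31.EP Vale.Agent.P088.R2.H475

variable {n : ℕ} {σ R kap Gs : ℝ}

theorem norm_le_pd (L : V n →L[ℝ] ℝ) {B : ℝ} (hB : 0 ≤ B) (h : ∀ i, |L (Pi.single i 1)| ≤ B) :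
    ‖L‖ ≤ n * B := by
  refine ContinuousLinearMap.opNorm_le_bound _ (by positivity) fun x => ?_
  have e : x = ∑ i, x i • (Pi.single i (1 : ℝ) : V n) := by
    funext j
    simp [Finset.sum_apply, Pi.single_apply]
  have e2 : L x = ∑ i, x i * L (Pi.single i 1) := by
    conv_lhs => rw [e]
    rw [map_sum]
    simp
  rw [e2]
  refine (norm_sum_le _ _).trans ?_
  calc ∑ i, ‖x i * L (Pi.single i 1)‖ ≤ ∑ _i : Fin n, ‖x‖ * B := by
        refine Finset.sum_le_sum fun i _ => ?_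
        rw [norm_mul]
        exact mul_le_mul (norm_le_pi_norm x i) (h i) (norm_nonneg _) (norm_nonneg _)
    _ = n * B * ‖x‖ := by
        rw [Finset.sum_const, Finset.card_univ, Fintype.card_fin, nsmul_eq_mul]; ring

theorem fd_lev_le (h0 : 0 < σ) (h1 : σ ≤ 1 / 5000) (hR : 0 < R) {x : V n}
    (h : HY.sq (wR n σ R x) ≤ 4) : ‖fderiv ℝ (levG n σ R kap Gs) x‖ ≤ 2 * n := by
  have h2 := (grad_levG_le (kap := kap) (Gs := Gs) h0 h1 hR x).trans
    (max_le (by norm_num : (1 : ℝ) ≤ 4) h)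
  have h3 : ∀ i, |fderiv ℝ (levG n σ R kap Gs) x (Pi.single i 1)| ≤ 2 := by
    intro i
    have h4 : pd i (levG n σ R kap Gs) x ^ 2 ≤ 4 :=
      (Finset.single_le_sum (f := fun i => pd i (levG n σ R kap Gs) x ^ 2)
        (fun j _ => sq_nonneg _) (Finset.mem_univ i)).trans h2
    refine abs_le_of_sq_le_sq ?_ (by norm_num)
    refine le_trans (le_of_eq ?_) (h4.trans (by norm_num))
    rfl
  have h5 := norm_le_pd _ (by norm_num) h3
  linarith

/-- below `lam0 + 5 R` -/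
theorem sq_wR_le (h0 : 0 < σ) (h1 : σ ≤ 1 / 5000) (hR : 0 < R) {x : V n} {c : ℝ} (hc : 0 ≤ c)
    (h : levG n σ R kap Gs x ≤ lam0 R kap Gs + c * R) : HY.sq (wR n σ R x) ≤ 1 + 2 * c * σ := by
  by_contra hh
  have h2 : 1 + 2 * c * σ < HY.sq (wR n σ R x) := not_le.1 hh
  have hth : th1 σ ≤ HY.sq (wR n σ R x) := by
    have h3 := th1_lt h0 h1
    have : 0 ≤ 2 * c * σ := by positivity
    linarith
  rw [levG_lit h0 h1 hth] at h
  have h3 : R / (2 * σ) * (HY.sq (wR n σ R x) - 1) ≤ c * R := by linarith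
  have h4 : R / (2 * σ) * (2 * c * σ) < R / (2 * σ) * (HY.sq (wR n σ R x) - 1) :=
    mul_lt_mul_of_pos_left (by linarith) (by positivity)
  have h5 : R / (2 * σ) * (2 * c * σ) = c * R := by field_simp
  linarith

theorem lev_Lk (hn : 1 ≤ n) (h0 : 0 < σ) (h1 : σ ≤ 1 / 5000) (k : ℕ) : ∃ R0 : ℝ, 1 ≤ R0 ∧
    ∀ R kap Gs : ℝ, R0 ≤ R →
      Lk k {x : V n | levG n σ R kap Gs x < lam0 R kap Gs + 5 * R} (2 * n)
        (levG n σ R kap Gs) := by
  choose C hC H using fun j => levG_bound (n := n) hn h0 h1 j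
  refine ⟨1 + ∑ j ∈ Finset.range k, C j, ?_, fun R kap Gs hR => ?_⟩
  · have : 0 ≤ ∑ j ∈ Finset.range k, C j := Finset.sum_nonneg fun j _ => (hC j).le
    linarith
  have hs : 0 ≤ ∑ j ∈ Finset.range k, C j := Finset.sum_nonneg fun j _ => (hC j).le
  have hR1 : 1 ≤ R := by linarith
  have hR0 : 0 < R := by linarith
  have hsm : ContDiff ℝ ∞ (levG n σ R kap Gs) := levG_smooth h0 h1
  refine ⟨isOpen_lt hsm.continuous continuous_const, hsm.contDiffOn, fun j hj1 hj x hx => ?_⟩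
  have hn1 : (1 : ℝ) ≤ n := by exact_mod_cast hn
  obtain ⟨i, rfl⟩ : ∃ i, j = i + 1 := ⟨j - 1, by omega⟩
  rcases Nat.eq_zero_or_pos i with rfl | hi
  · rw [← norm_iteratedFDeriv_fderiv, norm_iteratedFDeriv_zero]
    refine fd_lev_le h0 h1 hR0 ?_
    have := sq_wR_le (c := 5) h0 h1 hR0 (by norm_num) (le_of_lt hx)
    linarith
  · obtain ⟨m, rfl⟩ : ∃ m, i = m + 1 := ⟨i - 1, by omega⟩
    refine (H m R kap Gs hR0 x).trans ?_
    have h2 : C m ≤ ∑ j ∈ Finset.range k, C j :=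
      Finset.single_le_sum (f := C) (fun j _ => (hC j).le) (Finset.mem_range.2 (by omega))
    have h3 : R⁻¹ ^ (m + 1) ≤ R⁻¹ := by
      have h4 : R⁻¹ ≤ 1 := inv_le_one_of_one_le₀ hR1
      have h5 : 0 ≤ R⁻¹ := by positivity
      calc R⁻¹ ^ (m + 1) ≤ R⁻¹ ^ 1 := pow_le_pow_of_le_one h5 h4 (by omega)
        _ = R⁻¹ := pow_one _
    have h6 : C m * R⁻¹ ^ (m + 1) ≤ R * R⁻¹ :=
      mul_le_mul (by linarith) h3 (by positivity) hR0.le
    rw [mul_inv_cancel₀ hR0.ne'] at h6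
    linarith

theorem sq_le_norm (x : V n) : HY.sq x ≤ n * ‖x‖ ^ 2 := by
  unfold HY.sq
  calc ∑ j, x j ^ 2 ≤ ∑ _j : Fin n, ‖x‖ ^ 2 := by
        refine Finset.sum_le_sum fun j _ => ?_
        have := norm_le_pi_norm x j
        rw [Real.norm_eq_abs] at this
        calc x j ^ 2 = |x j| ^ 2 := (sq_abs _).symm
          _ ≤ ‖x‖ ^ 2 := by gcongr
    _ = n * ‖x‖ ^ 2 := by
        rw [Finset.sum_const, Finset.card_univ, Fintype.card_fin, nsmul_eq_mul]

theorem en_le_norm (hn : 1 ≤ n) (x : V n) : √(HY.sq x) ≤ n * ‖x‖ := by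
  have hn1 : (1 : ℝ) ≤ n := by exact_mod_cast hn
  refine Real.sqrt_le_iff.2 ⟨by positivity, (sq_le_norm x).trans ?_⟩
  rw [mul_pow]
  have : (n : ℝ) ≤ (n : ℝ) ^ 2 := by nlinarith
  gcongr

/-- Lipschitz bound near the points below `lam0 + 3 R`. -/
theorem lev_lip (hn : 1 ≤ n) (h0 : 0 < σ) (h1 : σ ≤ 1 / 5000) (hR : 0 < R) {x y : V n}
    (hy : levG n σ R kap Gs y ≤ lam0 R kap Gs + 3 * R) (h : n * ‖x - y‖ ≤ R) :
    |levG n σ R kap Gs x - levG n σ R kap Gs y| ≤ 2 * n * ‖x - y‖ := by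
  have hsm : ContDiff ℝ ∞ (levG n σ R kap Gs) := levG_smooth h0 h1
  have hy2 := sq_wR_le (c := 3) h0 h1 hR (by norm_num) hy
  have hy3 : √(HY.sq (wR n σ R y)) ≤ 1 + 3 * σ := by
    refine Real.sqrt_le_iff.2 ⟨by positivity, ?_⟩
    nlinarith
  have key : ∀ w ∈ segment ℝ y x, HY.sq (wR n σ R w) ≤ 4 := by
    intro w hw
    have h2 : ‖w - y‖ ≤ ‖x - y‖ := by
      obtain ⟨a, b, ha, hb, hab, rfl⟩ := hw
      have : a • y + b • x - y = b • (x - y) := by
        have : a = 1 - b := by linarith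
        rw [this]; module
      rw [this, norm_smul, Real.norm_of_nonneg hb]
      exact mul_le_of_le_one_left (norm_nonneg _) (by linarith)
    have h3 := en_wR_le (n := n) h0 hR w y
    have h4 : √(HY.sq (w - y)) ≤ R := by
      refine (en_le_norm hn _).trans (le_trans ?_ h)
      gcongr
    have h5 : σ / R * √(HY.sq (w - y)) ≤ σ := by
      calc σ / R * √(HY.sq (w - y)) ≤ σ / R * R := by gcongr
        _ = σ := by field_simp
    have h6 : √(HY.sq (wR n σ R w)) ≤ 2 := by linarith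
    have h7 := Real.sqrt_le_left (by norm_num : (0 : ℝ) ≤ 2) |>.1 h6
    linarith
  have := (convex_segment (𝕜 := ℝ) y x).norm_image_sub_le_of_norm_fderiv_le
    (f := levG n σ R kap Gs) (C := 2 * n)
    (fun w _ => (hsm.differentiable (by simp)) w)
    (fun w hw => fd_lev_le h0 h1 hR (key w hw)) (left_mem_segment ℝ y x)
    (right_mem_segment ℝ y x)
  rw [Real.norm_eq_abs] at this
  exact this

end Vale.Agent.P088.R2.H222
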