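import Vale.Agent.P088.R2.H31.EP.PackL
import Vale.Agent.P088.R2.H222.LevT

/-!
# P088 (helper222), row P2 for the package: the weight near the flat model, first pass
-/

open Set Filter
open scoped ContDiff Topology Matrix

noncomputable section

namespace Vale.Agent.P088.R2.H222

open Vale.Agent.P088.LR Vale.Agent.P088.HY Vale.Agent.P088.R2.H464.Cu
open Vale.Agent.P088.R2 Vale.Agent.P088.R2.H31 Vale.Agent.P088.R2.H31.EP Vale.Agent.P088.R2.H475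

variable {n k : ℕ}

/-! ## The slope -/

section slope

open Vale.Agent.P088.R2.H313.Ph

variable {ρ κ nm ν C1 C2 C3 al be Cb M0 a b : ℝ} {Cd : ℕ → ℝ} {Φ : ℝ → ℝ}

/-- the bound of the slope function -/
def M1f (k : ℕ) (Cb M0 a b : ℝ) (Cd : ℕ → ℝ) : ℝ :=
  Cb * M0 * (|a| + |b|) + Cb * M0 + ∑ j ∈ Finset.range k, Cd j * (Cb * Real.exp b)

theorem M1f_nonneg (hCb : 0 ≤ Cb) (hM : 0 ≤ M0) (hCd : ∀ j, 0 ≤ Cd j) :
    0 ≤ M1f k Cb M0 a b Cd := by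
  unfold M1f
  have : 0 ≤ ∑ j ∈ Finset.range k, Cd j * (Cb * Real.exp b) :=
    Finset.sum_nonneg fun j _ => mul_nonneg (hCd j) (by positivity)
  positivity

theorem sk_slope (h : IsPhiU ρ κ nm ν C1 C2 C3 al be Cb Cd M0 Φ) (hCb : 0 ≤ Cb) (hM : 0 ≤ M0)
    (hCd : ∀ j, 0 ≤ Cd j) : Sk k (Icc a b) univ (M1f k Cb M0 a b Cd) Φ := by
  have hs : ∀ m ∈ Finset.range k, 0 ≤ Cd m * (Cb * Real.exp b) :=
    fun j _ => mul_nonneg (hCd j) (by positivity)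
  have hsum : 0 ≤ ∑ j ∈ Finset.range k, Cd j * (Cb * Real.exp b) := Finset.sum_nonneg hs
  have h01 : 0 ≤ Cb * M0 := by positivity
  refine ⟨isOpen_univ, subset_univ _, h.sm.contDiffOn, fun j hj t ht => ?_⟩
  have hd1 : ∀ u, |deriv Φ u| ≤ Cb * M0 := fun u => by
    rw [abs_of_nonneg (hM.trans (h.n1 u))]
    exact h.n2 u
  unfold M1f
  rcases j with _ | _ | j
  · rw [iteratedDeriv_zero]
    have h1 := (convex_univ (𝕜 := ℝ) (E := ℝ)).norm_image_sub_le_of_norm_deriv_le (f := Φ)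
      (C := Cb * M0) (fun x _ => (h.sm.differentiable (by simp)) x)
      (fun x _ => hd1 x) (mem_univ 0) (mem_univ t)
    rw [h.ze, sub_zero, sub_zero, Real.norm_eq_abs, Real.norm_eq_abs] at h1
    have h2 : |t| ≤ |a| + |b| := by
      rw [abs_le]
      have := ht.1
      have := ht.2
      have := neg_abs_le a
      have := le_abs_self b
      have := abs_nonneg a
      have := abs_nonneg b
      constructor <;> linarith
    have h3 : Cb * M0 * |t| ≤ Cb * M0 * (|a| + |b|) := mul_le_mul_of_nonneg_left h2 h01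
    linarith
  · rw [zero_add, iteratedDeriv_one]
    have h1 := hd1 t
    have : 0 ≤ Cb * M0 * (|a| + |b|) := by positivity
    linarith
  · have h1 := h.kd j t
    have h2 := h.k2 t
    have h3 : Real.exp t ≤ Real.exp b := Real.exp_le_exp.2 ht.2
    have h4 : Cd j * deriv (deriv Φ) t ≤ Cd j * (Cb * Real.exp b) :=
      mul_le_mul_of_nonneg_left (h2.trans (mul_le_mul_of_nonneg_left h3 hCb)) (hCd j)
    have h5 : Cd j * (Cb * Real.exp b) ≤ ∑ j ∈ Finset.range k, Cd j * (Cb * Real.exp b) :=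
      Finset.single_le_sum (f := fun j => Cd j * (Cb * Real.exp b)) hs
        (Finset.mem_range.2 (by omega))
    have : 0 ≤ Cb * M0 * (|a| + |b|) := by positivity
    linarith

/-- transfer to the slope with the second growth -/
theorem sk_congr {I : Set ℝ} {M c : ℝ} {Ψ : ℝ → ℝ} (h : Sk k I univ M Φ) (hΨ : ContDiff ℝ ∞ Ψ)
    (he : ∀ u < c, Ψ u = Φ u) (hI : ∀ t ∈ I, t < c) : Sk k I univ M Ψ := by
  refine ⟨isOpen_univ, subset_univ _, hΨ.contDiffOn, fun j hj t ht => ?_⟩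
  have h1 : Ψ =ᶠ[𝓝 t] Φ := by
    filter_upwards [Iio_mem_nhds (hI t ht)] with u hu using he u hu
  rw [h1.iteratedDeriv_eq]
  exact h.b j hj t ht

end slope

/-! ## The set -/

/-- short differences, level between `a` and `b` -/
def UT (l : V n → ℝ) (r0 a b : ℝ) : Set (VV n) :=
  {z | qq z < r0 ^ 2 ∧ a < l z.1 + l z.2 ∧ l z.1 + l z.2 < b}

theorem continuous_qq : Continuous (qq : VV n → ℝ) := by
  unfold qq
  refine continuous_finsetSum _ fun i _ => ?_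
  exact ((difL n i).continuous).pow 2

theorem isOpen_UT {l : V n → ℝ} (hl : Continuous l) (r0 a b : ℝ) : IsOpen (UT l r0 a b) := by
  have h1 : Continuous fun z : VV n => l z.1 + l z.2 :=
    (hl.comp continuous_fst).add (hl.comp continuous_snd)
  exact (isOpen_lt continuous_qq continuous_const).inter
    ((isOpen_lt continuous_const h1).inter (isOpen_lt h1 continuous_const))

theorem norm_sub_le_qq {z : VV n} {r0 : ℝ} (h0 : 0 ≤ r0) (h : qq z ≤ r0 ^ 2) :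
    ‖z.1 - z.2‖ ≤ r0 := by
  refine (pi_norm_le_iff_of_nonneg h0).2 fun i => ?_
  exact abs_dif_le h0 h i

section geo

variable {q : Cst} {d : Pk n} {r0 a b : ℝ}

/-- **Geometry of `UT`**: both points and the midpoint are at levels `≤ b / 2 + 2 n r0`. -/
theorem UT_level (hn : 1 ≤ n) (hd : PkOk q d) (hσ0 : 0 < q.σ) (hσ1 : q.σ ≤ 1 / 5000)
    (hR : 0 < q.R) (h0 : 0 ≤ r0) (hb : b / 2 ≤ d.l₀ q + 3 * q.R) (hR2 : n * r0 ≤ q.R) {z : VV n}
    (hz : z ∈ UT d.l r0 a b) :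
    d.l z.1 ≤ b / 2 + 2 * n * r0 ∧ d.l z.2 ≤ b / 2 + 2 * n * r0 ∧
      d.l (mid z) ≤ b / 2 + 2 * n * r0 := by
  obtain ⟨hq, -, hlt⟩ := hz
  have hnr : (0 : ℝ) ≤ n := Nat.cast_nonneg n
  have hnorm : ‖z.1 - z.2‖ ≤ r0 := norm_sub_le_qq h0 hq.le
  have hnorm' : ‖z.2 - z.1‖ ≤ r0 := by rwa [norm_sub_rev]
  have hm1 : ‖mid z - z.1‖ ≤ r0 := by
    have : mid z - z.1 = (1 / 2 : ℝ) • (z.2 - z.1) := by
      unfold mid
      module
    rw [this, norm_smul]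
    have : ‖(1 / 2 : ℝ)‖ = 1 / 2 := by norm_num
    rw [this]
    linarith
  have hm2 : ‖mid z - z.2‖ ≤ r0 := by
    have : mid z - z.2 = (1 / 2 : ℝ) • (z.1 - z.2) := by
      unfold mid
      module
    rw [this, norm_smul]
    have : ‖(1 / 2 : ℝ)‖ = 1 / 2 := by norm_num
    rw [this]
    linarith
  have lip : ∀ x y : V n, d.l y ≤ b / 2 → ‖x - y‖ ≤ r0 → d.l x ≤ b / 2 + 2 * n * r0 := by
    intro x y hy hxy
    rw [hd.lev.lit] at hy ⊢
    have h1 := lev_lip (kap := d.kap) (Gs := d.Gs) hn hσ0 hσ1 hR (x := x) (y := y)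
      (hy.trans hb) ((mul_le_mul_of_nonneg_left hxy hnr).trans hR2)
    have h2 := (abs_le.1 h1).2
    have h3 : 2 * n * ‖x - y‖ ≤ 2 * n * r0 := by gcongr
    linarith
  have hp : 0 ≤ 2 * n * r0 := by positivity
  rcases le_total (d.l z.1) (d.l z.2) with h | h
  · have h1 : d.l z.1 ≤ b / 2 := by linarith
    exact ⟨by linarith, lip _ _ h1 hnorm', lip _ _ h1 hm1⟩
  · have h1 : d.l z.2 ≤ b / 2 := by linarith
    exact ⟨lip _ _ h1 hnorm, by linarith, lip _ _ h1 hm2⟩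

/-- the good set of points -/
def OT (n : ℕ) (q : Cst) (d : Pk n) : Set (V n) :=
  {x | levG n q.σ q.R d.kap d.Gs x < lam0 q.R d.kap d.Gs + 5 * q.R}

theorem mem_OT (hd : PkOk q d) (hR : 0 < q.R) {x : V n} (h : d.l x ≤ d.l₀ q + 3 * q.R) :
    x ∈ OT n q d := by
  rw [hd.lev.lit] at h
  have : d.l₀ q = lam0 q.R d.kap d.Gs := rfl
  rw [this] at h
  show levG n q.σ q.R d.kap d.Gs x < lam0 q.R d.kap d.Gs + 5 * q.R
  linarith

/-- the correction vanishes -/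
theorem mu0 (hd : PkOk q d) {s : ℝ} (h : s ≤ H313.Mu.sw q.Cs q.M₀) : (d.F q).μ s = 0 := by
  have h1 := d.μc_abs q s
  rw [hd.ph.isμ.ze s h, abs_zero] at h1
  exact abs_eq_zero.1 (le_antisymm h1 (abs_nonneg _))

theorem UT_cl (hn : 1 ≤ n) (hd : PkOk q d) (hσ0 : 0 < q.σ) (hσ1 : q.σ ≤ 1 / 5000)
    (hR : 0 < q.R) (h0 : 0 ≤ r0) (hb : b / 2 + 2 * n * r0 ≤ d.l₀ q + 2 * q.R) (hR2 : n * r0 ≤ q.R)
    (hμ : b / 2 + 2 * n * r0 ≤ H313.Mu.sw q.Cs q.M₀) :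
    Cl (d.F q) r0 a b (OT n q d) (UT d.l r0 a b) d.l := by
  have hp : 0 ≤ 2 * n * r0 := by positivity
  have lv := fun z (hz : z ∈ UT d.l r0 a b) =>
    UT_level hn hd hσ0 hσ1 hR h0 (by linarith) hR2 hz
  refine ⟨isOpen_UT hd.lev.sm.continuous _ _ _, fun z hz => ?_, fun z hz => ?_, fun z hz => ?_,
    fun z hz => hz.1.le, fun z hz => ⟨hz.2.1.le, hz.2.2.le⟩, fun z hz => ?_⟩
  · exact mem_OT hd hR ((lv z hz).1.trans (by linarith))
  · exact mem_OT hd hR ((lv z hz).2.1.trans (by linarith))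
  · exact mem_OT hd hR ((lv z hz).2.2.trans (by linarith))
  · exact mu0 hd ((lv z hz).2.2.trans hμ)

/-- on `UT` the weight is `WW`, and `u = l(x) + l(y)` -/
theorem UT_W (hn : 1 ≤ n) (hd : PkOk q d) (hσ0 : 0 < q.σ) (hσ1 : q.σ ≤ 1 / 5000)
    (hR : 0 < q.R) (h0 : 0 ≤ r0) (hb : b / 2 + 2 * n * r0 ≤ d.l₀ q + 2 * q.R) (hR2 : n * r0 ≤ q.R)
    (hμ : b / 2 + 2 * n * r0 ≤ H313.Mu.sw q.Cs q.M₀) {z : VV n} (hz : z ∈ UT d.l r0 a b) :
    d.W q z = WW (d.F q) d.l (gi d.s₁) z ∧ d.u q z = d.l z.1 + d.l z.2 := by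
  have hp : 0 ≤ 2 * n * r0 := by positivity
  obtain ⟨l1, l2, l3⟩ := UT_level hn hd hσ0 hσ1 hR h0 (by linarith) hR2 hz
  refine ⟨?_, uu_eq (UT_cl hn hd hσ0 hσ1 hR h0 hb hR2 hμ) hz⟩
  unfold Pk.W WT
  rw [hd.ret.id z.1 (by linarith), hd.ret.id z.2 (by linarith), hd.Θ0 _ (by linarith),
    hd.Θ0 _ (by linarith)]
  simp

end geo

/-! ## The tensors -/

theorem ck_s₁ {q : Cst} {d : Pk n} (hd : PkOk q d) (hR : 1 ≤ q.R) (hε : 0 ≤ q.ε) (hk : k ≤ 12) :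
    Ck k univ q.ε d.s₁ := by
  intro i j
  refine ⟨isOpen_univ, ((hd.rg.sm₁ i j).sub contDiff_const).contDiffOn, fun m hm x _ => ?_⟩
  refine (hd.rg.cl₁ i j m (hm.trans hk) x).trans ?_
  refine mul_le_of_le_one_right hε (pow_le_one₀ (by positivity) ?_)
  exact inv_le_one_of_one_le₀ hR

theorem ck_s₂ {q : Cst} {d : Pk n} (hd : PkOk q d) (hR : 1 ≤ q.R) (hε : 0 ≤ q.ε) (hk : k ≤ 12) :
    Ck k univ q.ε d.s₂ := by
  intro i j
  refine ⟨isOpen_univ, ((hd.rg.sm₂ i j).sub contDiff_const).contDiffOn, fun m hm x _ => ?_⟩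
  refine (hd.rg.cl₂ i j m (hm.trans hk) x).trans ?_
  refine mul_le_of_le_one_right hε (pow_le_one₀ (by positivity) ?_)
  exact inv_le_one_of_one_le₀ hR

/-- the constant of the inverse -/
def cG (n k : ℕ) : ℝ := n * (2 ^ k * cI n k)

theorem cG_nonneg (n k : ℕ) : 0 ≤ cG n k := by
  have := two_le_cI n k
  unfold cG
  positivity

theorem ck_gi {q : Cst} {d : Pk n} (hd : PkOk q d) (hR : 1 ≤ q.R) (hε : 0 ≤ q.ε) (hk : k ≤ 12)
    (h1 : q.ε ≤ 1) (h2 : n * q.ε ≤ 1 / 2) : Ck k univ (cG n k * q.ε) (gi d.s₁) :=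
  (ck_s₁ hd hR hε hk).inv isOpen_univ h1 h2

/-! ## The closeness, in the form `EvC` -/

theorem Sk.leM {I J : Set ℝ} {M M' : ℝ} {S : ℝ → ℝ} (h : Sk k I J M S) (hM : M ≤ M') :
    Sk k I J M' S := ⟨h.o, h.ij, h.s, fun j hj t ht => (h.b j hj t ht).trans hM⟩

/-- ends of the interval of `u` -/
def aT (A : Cst → ℝ) (q : Cst) : ℝ := Real.log (q.M₀ / A q)
def bT (A : Cst → ℝ) (q : Cst) : ℝ := Real.log (A q * q.M₀)

theorem close_q (n k : ℕ) {r0 : Cst → ℝ} (h0 : ∀ q, 0 ≤ r0 q) (A : Cst → ℝ) (q : Cst) :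
    ∃ C : ℝ, 0 ≤ C ∧ ∀ (F : Fu) (rd : ℝ), F.Ok rd → F.S = prS q.e₁ → (∀ u, F.X u = 1) →
      Sk k (Icc (aT A q) (bT A q)) univ
        (M1f k q.ph.Cb q.M₀ (aT A q) (bT A q) q.ph.Cd) F.Φ →
      ∀ ε : ℝ, 0 ≤ ε → ε ≤ 1 → (1 + n * ε) * r0 q ^ 2 < rd ^ 2 →
      ∀ (O : Set (V n)) (U : Set (VV n)) (l : V n → ℝ) (g : MF n), Lk k O (2 * n) l → Ck k O ε g →
        Cl F (r0 q) (aT A q) (bT A q) O U l →
        Bk k U (C * ε) (fun z => WW F l g z - W0 F l z) ∧ Bk k U C (WW F l g) ∧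
          Bk k U C (W0 F l) := by
  by_cases hp : ContDiff ℝ ∞ (prS q.e₁)
  · obtain ⟨M3, hM3, hS⟩ := exists_Sk hp (I := Kq n (r0 q)) isCompact_Icc (k + 1)
    obtain ⟨C, hC, H⟩ := WW_close_u n (h0 q) k (aT A q) (bT A q) (2 * n)
      (M1 := max (M1f k q.ph.Cb q.M₀ (aT A q) (bT A q) q.ph.Cd) 0) (le_max_right _ _) hM3
    refine ⟨C, hC, fun F rd hF hFS hX hΦ ε he0 he1 hsm O U l g hl hg hc => ?_⟩
    exact H F rd hF (hΦ.leM (le_max_left _ _)) (by rw [hFS]; exact hS) (fun u _ => hX u) ε he0 he1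
      hsm O U l g hl hg hc
  · exact ⟨0, le_rfl, fun F rd hF hFS => absurd (hFS ▸ hF.Ss) hp⟩

/-- the numerical conditions -/
structure TC (n k : ℕ) (r0 A : Cst → ℝ) (q : Cst) : Prop where
  σ0 : 0 < q.σ
  σ1 : q.σ ≤ 1 / 5000
  M0 : 1 ≤ q.M₀
  R1 : 1 ≤ q.R
  Ck : 2 ≤ q.Ck
  ε0 : 0 < q.ε
  ε1 : q.ε ≤ 1
  ε2 : n * q.ε ≤ 1 / 2
  ε3 : cG n k * q.ε ≤ 1
  Cb : 0 < q.ph.Cb
  Cd : ∀ j, 0 ≤ q.ph.Cd j
  μ : bT A q / 2 + 2 * n * r0 q ≤ H313.Mu.sw q.Cs q.M₀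
  rd : (1 + n) * r0 q ^ 2 < (q.r₁ * Real.exp (-1)) ^ 2
  lR : bT A q / 2 + 2 * n * r0 q ≤ Real.log q.R
  nR : n * r0 q ≤ q.R
  Lk : ∀ kap Gs : ℝ, Lk k {x : V n | levG n q.σ q.R kap Gs x < lam0 q.R kap Gs + 5 * q.R} (2 * n)
        (levG n q.σ q.R kap Gs)

theorem log_le_l₀ {q : Cst} {d : Pk n} (hd : PkOk q d) (hR : 1 ≤ q.R) (hC : 2 ≤ q.Ck) :
    Real.log q.R ≤ d.l₀ q := by
  have hR0 : 0 < q.R := by linarith
  have h1 : q.R ^ (2 : ℝ) ≤ d.kap :=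
    (Real.rpow_le_rpow_of_exponent_le hR hC).trans hd.kC
  have h2 : q.R ≤ d.kap / q.R := by
    rw [le_div_iff₀ hR0]
    calc q.R * q.R = q.R ^ (2 : ℝ) := by
          rw [Real.rpow_two]; ring
      _ ≤ d.kap := h1
  have h3 := Real.log_le_log hR0 h2
  have h4 : 0 ≤ -(q.R * d.Gs) := by
    have := mul_nonneg hR0.le (neg_nonneg.2 hd.G0)
    linarith
  unfold Pk.l₀
  linarith

/-- **Row P2, pointwise in the constants.** -/
theorem pkT_q {n k : ℕ} (hn : 1 ≤ n) (hk : k ≤ 12) {r0 A : Cst → ℝ} (h0 : ∀ q, 0 ≤ r0 q)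
    {q : Cst} (ht : TC n k r0 A q) {C : ℝ}
    (H : ∀ (F : Fu) (rd : ℝ), F.Ok rd → F.S = prS q.e₁ → (∀ u, F.X u = 1) →
      Sk k (Icc (aT A q) (bT A q)) univ
        (M1f k q.ph.Cb q.M₀ (aT A q) (bT A q) q.ph.Cd) F.Φ →
      ∀ ε : ℝ, 0 ≤ ε → ε ≤ 1 → (1 + n * ε) * r0 q ^ 2 < rd ^ 2 →
      ∀ (O : Set (V n)) (U : Set (VV n)) (l : V n → ℝ) (g : MF n), Lk k O (2 * n) l → Ck k O ε g →
        Cl F (r0 q) (aT A q) (bT A q) O U l →
        Bk k U (C * ε) (fun z => WW F l g z - W0 F l z) ∧ Bk k U C (WW F l g) ∧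
          Bk k U C (W0 F l))
    (d : Pk n) (hd : PkOk q d) :
    Cl (d.F q) (r0 q) (aT A q) (bT A q) (OT n q d) (UT d.l (r0 q) (aT A q) (bT A q)) d.l ∧
    (∀ z ∈ UT d.l (r0 q) (aT A q) (bT A q), (d.W q z = WW (d.F q) d.l (gi d.s₁) z ∧
      d.u q z = d.l z.1 + d.l z.2) ∧ bT A q < d.uth q / 2) ∧
    Bk k (UT d.l (r0 q) (aT A q) (bT A q)) (C * (cG n k * q.ε))
      (fun z => d.W q z - W0 (d.F q) d.l z) ∧
    Bk k (UT d.l (r0 q) (aT A q) (bT A q)) C (d.W q) ∧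
    Bk k (UT d.l (r0 q) (aT A q) (bT A q)) C (W0 (d.F q) d.l) ∧
    Ck k univ (cG n k * q.ε) (gi d.s₁) := by
  have hR0 : 0 < q.R := by linarith [ht.R1]
  have hl := log_le_l₀ hd ht.R1 ht.Ck
  have hb : bT A q / 2 + 2 * n * r0 q ≤ d.l₀ q + 2 * q.R := by
    have := ht.lR
    linarith
  have hlog : Real.log q.R ≤ q.R := (Real.log_le_sub_one_of_pos hR0).trans (by linarith)
  have hnr : 0 ≤ 2 * n * r0 q := by
    have := h0 q
    positivity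
  have hbu : bT A q < d.uth q / 2 := by
    have := ht.lR
    unfold Pk.uth
    linarith [ht.R1]
  have hcl := UT_cl (a := aT A q) hn hd ht.σ0 ht.σ1 hR0 (h0 q) hb ht.nR ht.μ
  have hW := fun z (hz : z ∈ UT d.l (r0 q) (aT A q) (bT A q)) =>
    UT_W (a := aT A q) hn hd ht.σ0 ht.σ1 hR0 (h0 q) hb ht.nR ht.μ hz
  have hg := ck_gi (k := k) hd ht.R1 ht.ε0.le hk ht.ε1 ht.ε2
  have hO : IsOpen (OT n q d) := (ht.Lk d.kap d.Gs).o
  have hΦ : Sk k (Icc (aT A q) (bT A q)) univ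
      (M1f k q.ph.Cb q.M₀ (aT A q) (bT A q) q.ph.Cd) (d.F q).Φ :=
    sk_congr (c := d.uth q / 2) (sk_slope hd.ph.isΦ ht.Cb.le (by linarith [ht.M0]) ht.Cd)
      hd.ok.Φs (fun u hu => hd.top.eq u hu.le) fun t h => lt_of_le_of_lt h.2 hbu
  have hLk : Lk k (OT n q d) (2 * n) d.l := by
    rw [hd.lev.lit]
    exact ht.Lk d.kap d.Gs
  have hG0 := cG_nonneg n k
  have hrd : (1 + n * (cG n k * q.ε)) * r0 q ^ 2 < (q.r₁ * Real.exp (-1)) ^ 2 := by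
    refine lt_of_le_of_lt ?_ ht.rd
    have h1 : (n : ℝ) * (cG n k * q.ε) ≤ n :=
      mul_le_of_le_one_right (Nat.cast_nonneg n) ht.ε3
    have := sq_nonneg (r0 q)
    gcongr
  obtain ⟨c1, c2, c3⟩ := H (d.F q) _ hd.ok rfl (fun _ => rfl) hΦ (cG n k * q.ε)
    (mul_nonneg hG0 ht.ε0.le) ht.ε3 hrd (OT n q d) _ d.l (gi d.s₁) hLk
    (hg.mono le_rfl le_rfl (subset_univ _) hO) hcl
  refine ⟨hcl, fun z hz => ⟨hW z hz, hbu⟩, ?_, ?_, c3, hg⟩
  · exact c1.congr fun z hz => by rw [(hW z hz).1]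
  · exact c2.congr fun z hz => (hW z hz).1

theorem ev_TC {n k : ℕ} (hn : 1 ≤ n) {r0 A : Cst → ℝ} (hr : NB_Cs r0) (hA : NB_Cs A)
    (hA0 : ∀ q, 0 < A q) : EvC (TC n k r0 A) := by
  -- the constants before `M₀`, `ε`, `R`
  have rM : ∀ q : Cst, r0 q.b_M₀ = r0 q := fun q => (hr q.b_M₀).symm.trans (hr q)
  have rR : ∀ q : Cst, r0 q.b_R = r0 q := fun q => (hr q.b_R).symm.trans (hr q)
  have aR : ∀ q : Cst, A q.b_R = A q := fun q => (hA q.b_R).symm.trans (hA q)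
  have e1 : EvC fun q => q.σ ≤ 1 / 5000 :=
    EvC.at_σ (fun _ t => t ≤ 1 / 5000) fun _ => sml_le (by norm_num)
  have e2 : EvC fun q => A q * Real.exp (4 * n * r0 q) ≤ q.Cs := by
    have := EvC.at_Cs (fun q t => A q * Real.exp (4 * n * r0 q) ≤ t)
      fun q => eventually_ge_atTop _
    refine this.mono fun q h => ?_
    rwa [hr q, hA q] at h
  have e3 : EvC fun q => 0 < q.c' →
      (1 + n) * r0 q ^ 2 < (q.c' * q.M₀ / 2 * Real.exp (-1)) ^ 2 := by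
    have := EvC.at_M₀ (fun q t => 0 < q.c' →
      (1 + n) * r0 q ^ 2 < (q.c' * t / 2 * Real.exp (-1)) ^ 2) fun q => by
        by_cases hc : 0 < q.c'
        · have h1 : Tendsto (fun t : ℝ => (q.c' * t / 2 * Real.exp (-1)) ^ 2) atTop atTop := by
            refine (tendsto_pow_atTop (by norm_num)).comp ?_
            refine Tendsto.atTop_mul_const (Real.exp_pos _) ?_
            refine Tendsto.atTop_div_const (by norm_num) ?_
            exact Tendsto.const_mul_atTop hc tendsto_id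
          filter_upwards [h1.eventually_gt_atTop ((1 + n) * r0 q ^ 2)] with t ht _ using ht
        · exact Eventually.of_forall fun _ h => absurd h hc
    refine this.mono fun q h hc => ?_
    have := h hc
    rwa [rM q] at this
  have e4 : EvC fun q => q.ε ≤ 1 ∧ n * q.ε ≤ 1 / 2 ∧ cG n k * q.ε ≤ 1 := by
    refine EvC.at_ε (fun _ t => t ≤ 1 ∧ n * t ≤ 1 / 2 ∧ cG n k * t ≤ 1) fun q => ?_
    have hn0 : (0 : ℝ) ≤ n := Nat.cast_nonneg n
    have hG := cG_nonneg n k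
    filter_upwards [sml_pos, sml_le (a := 1) one_pos,
      sml_le (a := 1 / (2 * n + 1)) (by positivity),
      sml_le (a := 1 / (cG n k + 1)) (by positivity)] with t t0 t1 t2 t3
    refine ⟨t1, ?_, ?_⟩
    · rw [le_div_iff₀ (by positivity)] at t2
      nlinarith
    · rw [le_div_iff₀ (by positivity)] at t3
      nlinarith
  have e5 : EvC fun q => 2 ≤ q.Ck := EvC.at_Ck (fun _ t => 2 ≤ t) fun _ => eventually_ge_atTop _
  have e6 : EvC fun q => (bT A q / 2 + 2 * n * r0 q ≤ Real.log q.R ∧ n * r0 q ≤ q.R) := by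
    have := EvC.at_R (fun q t => bT A q / 2 + 2 * n * r0 q ≤ Real.log t ∧ n * r0 q ≤ t)
      fun q => (Real.tendsto_log_atTop.eventually_ge_atTop _).and (eventually_ge_atTop _)
    refine this.mono fun q h => ?_
    have hb : bT A q.b_R = bT A q := by
      unfold bT
      rw [aR q]
      rfl
    rwa [rR q, hb] at h
  have e7 : EvC fun q => 0 < q.σ → q.σ ≤ 1 / 5000 → ∀ kap Gs : ℝ,
      Lk k {x : V n | levG n q.σ q.R kap Gs x < lam0 q.R kap Gs + 5 * q.R} (2 * n)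
        (levG n q.σ q.R kap Gs) := by
    refine EvC.at_R (fun q t => 0 < q.σ → q.σ ≤ 1 / 5000 → ∀ kap Gs : ℝ,
      Lk k {x : V n | levG n q.σ t kap Gs x < lam0 t kap Gs + 5 * t} (2 * n)
        (levG n q.σ t kap Gs)) fun q => ?_
    by_cases hc : 0 < q.σ ∧ q.σ ≤ 1 / 5000
    · obtain ⟨R0, -, H⟩ := lev_Lk (n := n) hn hc.1 hc.2 k
      filter_upwards [eventually_ge_atTop R0] with t ht _ _ kap Gs using H t kap Gs ht
    · exact Eventually.of_forall fun _ a b => absurd ⟨a, b⟩ hc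
  refine ((((EvC.pos.and EvC.good).and (e1.and e2)).and (e3.and e4)).and
    ((e5.and e6).and e7)).mono ?_
  rintro q ⟨⟨⟨⟨p, g⟩, f1, f2⟩, f3, f4⟩, ⟨f5, f6⟩, f7⟩
  obtain ⟨-, ⟨-, pσ, pc, -, pCs, -, -⟩, p⟩ := p
  have pM : 1 ≤ q.M₀ := by
    have h1 := g.1.2.2.2.1.Ms1
    have h2 := g.1.2.2.2.2
    have h3 : (1 : ℝ) ≤ Real.exp 100 := Real.one_le_exp (by norm_num)
    linarith
  have pε : 0 < q.ε := by tauto
  have pR : 1 ≤ q.R := by tauto
  refine ⟨pσ, f1, pM, pR, f5, pε, f4.1, f4.2.1, f4.2.2, g.1.1.Cb0, g.1.1.Cd0, ?_, ?_, f6.1, f6.2,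
    f7 pσ f1⟩
  · have hM : 0 < q.M₀ := by linarith
    have h1 := Real.log_le_log (mul_pos (hA0 q) (Real.exp_pos _)) f2
    rw [Real.log_mul (hA0 q).ne' (Real.exp_pos _).ne', Real.log_exp] at h1
    unfold bT H313.Mu.sw
    rw [Real.log_mul (hA0 q).ne' hM.ne', Real.log_mul (by linarith) hM.ne']
    linarith
  · exact f3 pc

/-- **Row P2 for the package, first pass.**  `r0`, `A` are functions of the constants before `Cs`;
on `UT = {|x - y| < r0, M₀ / A < e^(l(x) + l(y)) < A M₀}` the weight is `WW`, `u = l(x) + l(y)`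
and the weight is `C ε`-close to `W0` with `k ≤ 12` derivatives. -/
theorem pkT {n k : ℕ} (hn : 1 ≤ n) (hk : k ≤ 12) {r0 A : Cst → ℝ} (hr : NB_Cs r0)
    (hA : NB_Cs A) (h0 : ∀ q, 0 ≤ r0 q) (hA0 : ∀ q, 0 < A q) :
    ∃ C : Cst → ℝ, NB_ε C ∧ (∀ q, 0 ≤ C q) ∧ EvC fun q => ∀ d : Pk n, PkOk q d →
      Cl (d.F q) (r0 q) (aT A q) (bT A q) (OT n q d) (UT d.l (r0 q) (aT A q) (bT A q)) d.l ∧
      (∀ z ∈ UT d.l (r0 q) (aT A q) (bT A q), (d.W q z = WW (d.F q) d.l (gi d.s₁) z ∧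
        d.u q z = d.l z.1 + d.l z.2) ∧ bT A q < d.uth q / 2) ∧
      Bk k (UT d.l (r0 q) (aT A q) (bT A q)) (C q * q.ε)
        (fun z => d.W q z - W0 (d.F q) d.l z) ∧
      Bk k (UT d.l (r0 q) (aT A q) (bT A q)) (C q) (d.W q) ∧
      Bk k (UT d.l (r0 q) (aT A q) (bT A q)) (C q) (W0 (d.F q) d.l) ∧
      Ck k univ (C q * q.ε) (gi d.s₁) := by
  choose C hC H using fun q => close_q n k h0 A q
  have hG := cG_nonneg n k
  have rε : ∀ q : Cst, r0 q.b_ε = r0 q := fun q => (hr q.b_ε).symm.trans (hr q)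
  have aε : ∀ q : Cst, A q.b_ε = A q := fun q => (hA q.b_ε).symm.trans (hA q)
  have haT : ∀ q : Cst, aT A q.b_ε = aT A q := fun q => by
    unfold aT
    rw [aε q]
    rfl
  have hbT : ∀ q : Cst, bT A q.b_ε = bT A q := fun q => by
    unfold bT
    rw [aε q]
    rfl
  refine ⟨fun q => (C q.b_ε + 1) * (cG n k + 1), fun q => rfl, fun q => ?_, ?_⟩
  · have := hC q.b_ε
    positivity
  refine EvC.mp (ev_TC (n := n) (k := k) hn hr hA hA0) (EvC.of fun q ht d hd => ?_)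
  have H' := H q.b_ε
  rw [haT q, hbT q, rε q] at H'
  obtain ⟨c1, c2, c3, c4, c5, c6⟩ := pkT_q hn hk h0 ht H' d hd
  have hCε := hC q.b_ε
  have hCG : 0 ≤ C q.b_ε * cG n k := mul_nonneg hCε hG
  refine ⟨c1, c2, c3.le ?_, c4.le ?_, c5.le ?_, c6.mono le_rfl ?_ Subset.rfl isOpen_univ⟩
  · have : C q.b_ε * (cG n k * q.ε) = C q.b_ε * cG n k * q.ε := by ring
    rw [this]
    refine mul_le_mul_of_nonneg_right ?_ ht.ε0.le
    nlinarith
  · nlinarith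
  · nlinarith
  · refine mul_le_mul_of_nonneg_right ?_ ht.ε0.le
    nlinarith

end Vale.Agent.P088.R2.H222
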