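import Vale.Agent.P088.R2.H222.PkT

/-!
# P088 (helper222), row P2 for the package: the reverse pass

On the reverse pass the metric is flat and the correction vanishes: the weight IS the flat model.
-/

open Set Filter
open scoped ContDiff Topology Matrix

noncomputable section

namespace Vale.Agent.P088.R2.H222

open Vale.Agent.P088.LR Vale.Agent.P088.HY Vale.Agent.P088.R2.H464.Cu
open Vale.Agent.P088.R2 Vale.Agent.P088.R2.H31 Vale.Agent.P088.R2.H31.EP Vale.Agent.P088.R2.H475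

variable {n k : ℕ} {q : Cst} {d : Pk n} {r0 a b : ℝ}

theorem UT_level' (hn : 1 ≤ n) (hd : PkOk q d) (hσ0 : 0 < q.σ) (hσ1 : q.σ ≤ 1 / 5000)
    (hR : 0 < q.R) (h0 : 0 ≤ r0) (hb : b / 2 ≤ d.l₀ q + 3 * q.R) (hR2 : n * r0 ≤ q.R) {z : VV n}
    (hz : z ∈ UT d.l r0 a b) :
    a / 2 - 3 * n * r0 ≤ d.l z.1 ∧ a / 2 - 3 * n * r0 ≤ d.l z.2 ∧
      a / 2 - 3 * n * r0 ≤ d.l (mid z) := by
  obtain ⟨hq, hgt, hlt⟩ := hz
  have hnr : (0 : ℝ) ≤ n := Nat.cast_nonneg n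
  have hnorm : ‖z.1 - z.2‖ ≤ r0 := norm_sub_le_qq h0 hq.le
  have hnorm' : ‖z.2 - z.1‖ ≤ r0 := by rwa [norm_sub_rev]
  have hm1 : ‖mid z - z.1‖ ≤ r0 := by
    have : mid z - z.1 = (1 / 2 : ℝ) • (z.2 - z.1) := by
      unfold mid
      module
    rw [this, norm_smul]
    have : ‖(1 / 2 : ℝ)‖ = 1 / 2 := by norm_num
    rw [this]
    linarith
  have hm2 : ‖mid z - z.2‖ ≤ r0 := by
    have : mid z - z.2 = (1 / 2 : ℝ) • (z.1 - z.2) := by
      unfold mid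
      module
    rw [this, norm_smul]
    have : ‖(1 / 2 : ℝ)‖ = 1 / 2 := by norm_num
    rw [this]
    linarith
  have lip : ∀ x y : V n, d.l y ≤ b / 2 → ‖x - y‖ ≤ r0 →
      |d.l x - d.l y| ≤ 2 * n * r0 := by
    intro x y hy hxy
    rw [hd.lev.lit] at hy ⊢
    have h1 := lev_lip (kap := d.kap) (Gs := d.Gs) hn hσ0 hσ1 hR (x := x) (y := y)
      (hy.trans hb) ((mul_le_mul_of_nonneg_left hxy hnr).trans hR2)
    exact h1.trans (by gcongr)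
  have hp : 0 ≤ n * r0 := by positivity
  rcases le_total (d.l z.1) (d.l z.2) with h | h
  · have h1 : d.l z.1 ≤ b / 2 := by linarith
    have h2 := abs_le.1 (lip _ _ h1 hnorm')
    have h3 := abs_le.1 (lip _ _ h1 hm1)
    exact ⟨by linarith, by linarith, by linarith⟩
  · have h1 : d.l z.2 ≤ b / 2 := by linarith
    have h2 := abs_le.1 (lip _ _ h1 hnorm)
    have h3 := abs_le.1 (lip _ _ h1 hm2)
    exact ⟨by linarith, by linarith, by linarith⟩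

/-- flat metric above `l₀ + 21 R / 20` -/
theorem flat (hn : 1 ≤ n) (hd : PkOk q d) (hσ0 : 0 < q.σ) (hσ1 : q.σ ≤ 1 / 5000)
    (hR : 0 < q.R) {x : V n} (h : d.l₀ q + 21 / 20 * q.R ≤ d.l x) : d.s₁ x = 1 ∧ d.s₂ x = 1 := by
  have h1 : lam0 q.R d.kap d.Gs + 21 / 20 * q.R ≤ levG n q.σ q.R d.kap d.Gs x := by
    rw [hd.lev.lit] at h
    exact h
  have h2 := en_gt_of_levG hn hσ0 hσ1 hR h1
  refine hd.rg.of x fun hx => ?_
  have h3 : √(HY.sq x) < 2 * q.R := by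
    rw [Real.sqrt_lt' (by linarith)]
    have h4 : HY.sq (x - 0) < (2 * q.R) ^ 2 := hx
    rwa [sub_zero] at h4
  linarith

/-- numerical conditions of the reverse pass -/
structure TR (n : ℕ) (r0 : ℝ) (q : Cst) : Prop where
  σ0 : 0 < q.σ
  σ1 : q.σ ≤ 1 / 5000
  R1 : 1 ≤ q.R
  nR : 300 * n * r0 ≤ q.R
  rd : r0 ^ 2 < (q.r₁ * Real.exp (-1)) ^ 2

/-- the set of the reverse pass -/
def UR (q : Cst) (d : Pk n) (r0 : ℝ) : Set (VV n) :=
  UT d.l r0 (2 * d.l₀ q + 43 / 20 * q.R) (2 * d.l₀ q + 5 * q.R)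

/-- **The reverse pass**: flat metric, no correction, the weight is the flat model. -/
theorem UR_eq (hn : 1 ≤ n) (hd : PkOk q d) (h0 : 0 ≤ r0) (ht : TR n r0 q) :
    IsOpen (UR q d r0) ∧ ∀ z ∈ UR q d r0, (d.s₁ z.1 = 1 ∧ d.s₂ z.1 = 1) ∧
      (d.s₁ z.2 = 1 ∧ d.s₂ z.2 = 1) ∧ (d.s₁ (mid z) = 1 ∧ d.s₂ (mid z) = 1) ∧
      (d.F q).μ (d.l (mid z)) = 0 ∧ d.u q z = d.l z.1 + d.l z.2 ∧ d.r2 z = qq z ∧
      d.P z.1 = z.1 ∧ d.P z.2 = z.2 ∧ d.Θ (d.l z.1) = 0 ∧ d.Θ (d.l z.2) = 0 ∧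
      d.W q z = W0 (d.F q) d.l z := by
  have hR0 : 0 < q.R := by linarith [ht.R1]
  have hnr : 0 ≤ n * r0 := by positivity
  have hnR : n * r0 ≤ q.R / 300 := by
    have := ht.nR
    linarith
  have hb : (2 * d.l₀ q + 5 * q.R) / 2 ≤ d.l₀ q + 3 * q.R := by linarith
  refine ⟨isOpen_UT hd.lev.sm.continuous _ _ _, fun z hz => ?_⟩
  obtain ⟨l1, l2, l3⟩ := UT_level hn hd ht.σ0 ht.σ1 hR0 h0 hb (by linarith) hz
  obtain ⟨m1, m2, m3⟩ := UT_level' hn hd ht.σ0 ht.σ1 hR0 h0 hb (by linarith) hz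
  have fl : ∀ x, d.l₀ q + 21 / 20 * q.R ≤ d.l x → d.s₁ x = 1 ∧ d.s₂ x = 1 := fun x hx =>
    flat hn hd ht.σ0 ht.σ1 hR0 hx
  have f1 := fl z.1 (by linarith)
  have f2 := fl z.2 (by linarith)
  have f3 := fl (mid z) (by linarith)
  have hμ : (d.F q).μ (d.l (mid z)) = 0 := d.μc_zero q hR0 (by linarith)
  have hu : d.u q z = d.l z.1 + d.l z.2 := by
    unfold Pk.u EP.uu
    rw [hμ]
    ring
  have hr2 : d.r2 z = qq z := by
    have h1 := r2_sub_qq (gi d.s₁) z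
    have h2 : gi d.s₁ (mid z) = 1 := by
      unfold gi
      rw [f3.1, inv_one]
    simp only [h2, dl, sub_self, zero_mul, Finset.sum_const_zero] at h1
    show EP.r2 (gi d.s₁) z = qq z
    linarith
  have hP1 := hd.ret.id z.1 (by linarith)
  have hP2 := hd.ret.id z.2 (by linarith)
  have hΘ1 := hd.Θ0 (d.l z.1) (by linarith)
  have hΘ2 := hd.Θ0 (d.l z.2) (by linarith)
  refine ⟨f1, f2, f3, hμ, hu, hr2, hP1, hP2, hΘ1, hΘ2, ?_⟩
  have hrd : EP.r2 (gi d.s₁) z < (q.r₁ * Real.exp (-1)) ^ 2 := by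
    have h1 : EP.r2 (gi d.s₁) z = qq z := hr2
    rw [h1]
    exact hz.1.trans ht.rd
  have hu' : EP.uu (d.F q) d.l (gi d.s₁) z = d.l z.1 + d.l z.2 := hu
  have hr' : EP.r2 (gi d.s₁) z = qq z := hr2
  unfold Pk.W WT WW
  rw [hP1, hP2, hΘ1, hΘ2]
  simp only [Prod.mk.eta]
  rw [st_in' hd.ok hrd, hu', hr', W0]
  have hX : (d.F q).X (d.l z.1 + d.l z.2) = 1 := rfl
  rw [hX]
  ring

theorem ev_TR {n : ℕ} {r0 : Cst → ℝ} (hr : NB_Cs r0) : EvC fun q => TR n (r0 q) q := by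
  have rM : ∀ q : Cst, r0 q.b_M₀ = r0 q := fun q => (hr q.b_M₀).symm.trans (hr q)
  have rR : ∀ q : Cst, r0 q.b_R = r0 q := fun q => (hr q.b_R).symm.trans (hr q)
  have e1 : EvC fun q => q.σ ≤ 1 / 5000 :=
    EvC.at_σ (fun _ t => t ≤ 1 / 5000) fun _ => sml_le (by norm_num)
  have e3 : EvC fun q => 0 < q.c' →
      r0 q ^ 2 < (q.c' * q.M₀ / 2 * Real.exp (-1)) ^ 2 := by
    have := EvC.at_M₀ (fun q t => 0 < q.c' →
      r0 q ^ 2 < (q.c' * t / 2 * Real.exp (-1)) ^ 2) fun q => by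
        by_cases hc : 0 < q.c'
        · have h1 : Tendsto (fun t : ℝ => (q.c' * t / 2 * Real.exp (-1)) ^ 2) atTop atTop := by
            refine (tendsto_pow_atTop (by norm_num)).comp ?_
            refine Tendsto.atTop_mul_const (Real.exp_pos _) ?_
            refine Tendsto.atTop_div_const (by norm_num) ?_
            exact Tendsto.const_mul_atTop hc tendsto_id
          filter_upwards [h1.eventually_gt_atTop (r0 q ^ 2)] with t ht _ using ht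
        · exact Eventually.of_forall fun _ h => absurd h hc
    refine this.mono fun q h hc => ?_
    have := h hc
    rwa [rM q] at this
  have e6 : EvC fun q => 300 * n * r0 q ≤ q.R := by
    have := EvC.at_R (fun q t => 300 * n * r0 q ≤ t) fun q => eventually_ge_atTop _
    refine this.mono fun q h => ?_
    rwa [rR q] at h
  refine ((EvC.pos.and e1).and (e3.and e6)).mono ?_
  rintro q ⟨⟨p, f1⟩, f3, f6⟩
  obtain ⟨-, ⟨-, pσ, pc, -, pCs, -, -⟩, p⟩ := p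
  have pR : 1 ≤ q.R := by tauto
  exact ⟨pσ, f1, pR, f6, f3 pc⟩

/-- **The reverse pass**, form `EvC`. -/
theorem pkR {n : ℕ} (hn : 1 ≤ n) {r0 : Cst → ℝ} (hr : NB_Cs r0) (h0 : ∀ q, 0 ≤ r0 q) :
    EvC fun q => ∀ d : Pk n, PkOk q d → IsOpen (UR q d (r0 q)) ∧ ∀ z ∈ UR q d (r0 q),
      (d.s₁ z.1 = 1 ∧ d.s₂ z.1 = 1) ∧
      (d.s₁ z.2 = 1 ∧ d.s₂ z.2 = 1) ∧ (d.s₁ (mid z) = 1 ∧ d.s₂ (mid z) = 1) ∧
      (d.F q).μ (d.l (mid z)) = 0 ∧ d.u q z = d.l z.1 + d.l z.2 ∧ d.r2 z = qq z ∧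
      d.P z.1 = z.1 ∧ d.P z.2 = z.2 ∧ d.Θ (d.l z.1) = 0 ∧ d.Θ (d.l z.2) = 0 ∧
      d.W q z = W0 (d.F q) d.l z :=
  (ev_TR hr).mono fun q ht _ hd => UR_eq hn hd (h0 q) ht

end Vale.Agent.P088.R2.H222
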